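import Mathlib
import Vale.Agent.P211.Analytic.Limit

/-!
P211, module G (note 1326): the passage form of the pointwise certificate, the limit sequences of
almost solutions, and functions of the two unknowns, also against the squared gradients, whose
integrals tend to zero along them.  `Gate` is proved from the certificates in module F; it is never
to be assumed in a hand-in.
-/

open MeasureTheory Filter Topology
open scoped ContDiff

namespace Vale.Agent.P211.Analytic

noncomputable section

variable {X : Type*} [TopologicalSpace X] [MeasurableSpace X] (S : ScalarGeom X)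

/-- An almost solution all whose error terms are at most `ν`. -/
structure Approx.Small {S : ScalarGeom X} (A : Approx S) (ν : ℝ) : Prop where
  defect : A.e ≤ ν
  accuracy : A.ε ≤ ν
  below₁ : ∫ x, A.below x ^ 2 ∂S.vol ≤ ν
  below₂ : ∫ x, A.symm.below x ^ 2 ∂S.vol ≤ ν
  excess₁ : ∫ x, A.excess x ^ 2 ∂S.vol ≤ ν
  excess₂ : ∫ x, A.symm.excess x ^ 2 ∂S.vol ≤ ν
  phi : ∫ x, max (A.phi x - capLevel) 0 ^ 2 ∂S.vol ≤ ν
  lapErr : ∫ x, A.lapErr x ^ 2 ∂S.vol ≤ ν
  energy : ∫ x, A.energyDensity x ∂S.vol ≤ 294 * S.vol.real Set.univ + 8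
  layer : ∀ s > 0,
    (∫ x, {y | |A.level y| < s}.indicator (fun y => S.ip A.level A.level y) x ∂S.vol) ≤
      4 * s * (2200 * S.vol.real Set.univ + 600)

/-- The passage form of the certificate: for large penalty, then small errors, the integral of `G`
is as small as wished. -/
def Gate (G : ℝ → ℝ → ℝ) : Prop :=
  ∀ δ > 0, ∀ β₀ : ℝ, ∃ β : ℝ, β₀ ≤ β ∧ 12000 ≤ β ∧
    ∃ ν₀ > 0, ∀ A : Approx S, A.β = β → A.Small ν₀ → ∫ x, G (A.f x) (A.g x) ∂S.vol ≤ δ

/-- The error in the bound of one Laplacian from below. -/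
def Approx.lapLow {S : ScalarGeom X} (A : Approx S) (x : X) : ℝ :=
  220 * (A.below x + A.ε) + A.excess x + |A.res x|

/-- A sequence of almost solutions over barriers whose cubes tend uniformly to `p` and `q`. -/
structure Run (p q : X → ℝ) (G : ℝ → ℝ → ℝ) where
  /-- The almost solutions. -/
  A : ℕ → Approx S
  accuracy : Tendsto (fun n => (A n).ε) atTop (𝓝 0)
  below₁ : Tendsto (fun n => ∫ x, (A n).below x ∂S.vol) atTop (𝓝 0)
  below₂ : Tendsto (fun n => ∫ x, (A n).symm.below x ∂S.vol) atTop (𝓝 0)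
  low₁ : Tendsto (fun n => ∫ x, (A n).lapLow x ∂S.vol) atTop (𝓝 0)
  low₂ : Tendsto (fun n => ∫ x, (A n).symm.lapLow x ∂S.vol) atTop (𝓝 0)
  lapErr : Tendsto (fun n => ∫ x, (A n).lapErr x ^ 2 ∂S.vol) atTop (𝓝 0)
  above : Tendsto (fun n => ∫ x, max (qC ((A n).f x) + qC ((A n).g x) - 2) 0 ∂S.vol) atTop (𝓝 0)
  gate : ∀ δ > 0, ∀ᶠ n in atTop, ∫ x, G ((A n).f x) ((A n).g x) ∂S.vol ≤ δ
  limit₁ : ∀ δ > 0, ∀ᶠ n in atTop, ∀ x, |(A n).l₁ x ^ 3 - p x| ≤ δ
  limit₂ : ∀ δ > 0, ∀ᶠ n in atTop, ∀ x, |(A n).l₂ x ^ 3 - q x| ≤ δ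

/-- The box containing every almost solution. -/
def box : Set (ℝ × ℝ) := Set.Icc (-1 / 4) (9 / 4) ×ˢ Set.Icc (-1 / 4) (9 / 4)

lemma isCompact_box : IsCompact box := isCompact_Icc.prod isCompact_Icc

lemma Approx.mem_box {S : ScalarGeom X} (A : Approx S) (x : X) : (A.f x, A.g x) ∈ box := by
  obtain ⟨⟨a, b⟩, c, d⟩ := A.band x
  have := A.hε.2
  exact ⟨⟨by linarith, by linarith⟩, ⟨by linarith, by linarith⟩⟩

/-- Off the zero set of a nonnegative function, anything is dominated by a multiple of it. -/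
lemma dominate {K : Set (ℝ × ℝ)} (hK : IsCompact K) {φ ψ : ℝ × ℝ → ℝ} (hφ : Continuous φ)
    (hψ : Continuous ψ) (h0 : ∀ p ∈ K, 0 ≤ ψ p) (hz : ∀ p ∈ K, ψ p = 0 → φ p ≤ 0) {σ : ℝ}
    (hσ : 0 < σ) : ∃ C, 0 ≤ C ∧ ∀ p ∈ K, φ p ≤ σ + C * ψ p := by
  have hK' : IsCompact (K ∩ φ ⁻¹' Set.Ici σ) := hK.inter_right (isClosed_Ici.preimage hφ)
  rcases (K ∩ φ ⁻¹' Set.Ici σ).eq_empty_or_nonempty with he | hne
  · refine ⟨0, le_rfl, fun p hp => ?_⟩
    rw [zero_mul, add_zero]
    by_contra hc
    exact Set.eq_empty_iff_forall_notMem.1 he p ⟨hp, (not_le.1 hc).le⟩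
  obtain ⟨a, ⟨ha, hφa⟩, hmin⟩ := hK'.exists_isMinOn hne hψ.continuousOn
  obtain ⟨b, hb, hmax⟩ := hK'.exists_isMaxOn hne hφ.continuousOn
  have hm : 0 < ψ a := by
    refine (h0 a ha).lt_of_ne fun e => ?_
    exact absurd ((hz a ha e.symm).trans_lt hσ) (not_lt.2 hφa)
  have hb0 : 0 ≤ φ b := hσ.le.trans hb.2
  refine ⟨φ b / ψ a, div_nonneg hb0 hm.le, fun p hp => ?_⟩
  rcases le_or_gt σ (φ p) with h | h
  · have h1 : φ p ≤ φ b := hmax ⟨hp, h⟩
    have h2 := mul_le_mul_of_nonneg_left (show ψ a ≤ ψ p from hmin ⟨hp, h⟩)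
      (div_nonneg hb0 hm.le)
    rw [div_mul_cancel₀ _ hm.ne'] at h2
    linarith
  · linarith [mul_nonneg (div_nonneg hb0 hm.le) (h0 p hp)]

/-- Cubes control their roots. -/
lemma abs_sub_le_of_cube {a b σ : ℝ} (ha : 0 ≤ a) (hb : 0 ≤ b) (hσ : 0 ≤ σ)
    (h : |a ^ 3 - b ^ 3| ≤ σ ^ 3) : |a - b| ≤ σ := by
  obtain ⟨h1, h2⟩ := abs_le.1 h
  rw [abs_le]
  constructor
  · by_contra hc
    rw [not_le] at hc
    have h3 := pow_lt_pow_left₀ (show a + σ < b by linarith) (by linarith) (three_ne_zero)
    nlinarith [mul_nonneg (mul_nonneg ha hσ) (add_nonneg ha hσ)]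
  · by_contra hc
    rw [not_le] at hc
    have h3 := pow_lt_pow_left₀ (show b + σ < a by linarith) (by linarith) (three_ne_zero)
    nlinarith [mul_nonneg (mul_nonneg hb hσ) (add_nonneg hb hσ)]

variable [CompactSpace X] [BorelSpace X]

/-- The ideal limit set: both variables nonnegative, below the level, at a zero of `G`. -/
def defectOf (G : ℝ → ℝ → ℝ) (p : ℝ × ℝ) : ℝ :=
  max (G p.1 p.2) 0 + (max (-p.1) 0 + max (-p.2) 0 + max (qC p.1 + qC p.2 - 2) 0)

lemma defectOf_nonneg (G : ℝ → ℝ → ℝ) (p : ℝ × ℝ) : 0 ≤ defectOf G p := by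
  unfold defectOf; positivity

namespace Run

variable {S : ScalarGeom X} {p q : X → ℝ} {G : ℝ → ℝ → ℝ} (R : Run S p q G)

/-- A function of the two unknowns, integrated. -/
def avg (φ : ℝ × ℝ → ℝ) (n : ℕ) : ℝ := ∫ x, φ ((R.A n).f x, (R.A n).g x) ∂S.vol

omit [CompactSpace X] [BorelSpace X] in
lemma continuous_pair (φ : ℝ × ℝ → ℝ) (hφ : Continuous φ) (n : ℕ) :
    Continuous fun x => φ ((R.A n).f x, (R.A n).g x) :=
  hφ.comp ((R.A n).continuous_f.prodMk (R.A n).continuous_g)

/-- A nonnegative function vanishing where a null one does is null. -/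
lemma null_of_null {φ ψ : ℝ × ℝ → ℝ} (hφ : Continuous φ) (hψ : Continuous ψ)
    (hφ0 : ∀ z ∈ box, 0 ≤ φ z) (h0 : ∀ z ∈ box, 0 ≤ ψ z) (hz : ∀ z ∈ box, ψ z = 0 → φ z ≤ 0)
    (hlim : Tendsto (R.avg ψ) atTop (𝓝 0)) : Tendsto (R.avg φ) atTop (𝓝 0) := by
  have h00 : ∀ n, 0 ≤ R.avg φ n := fun n => integral_nonneg fun x => hφ0 _ ((R.A n).mem_box x)
  refine tendsto_order.2 ⟨fun b hb => .of_forall fun n => hb.trans_le (h00 n), fun b hb => ?_⟩
  have hV : 0 ≤ S.vol.real Set.univ := measureReal_nonneg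
  set σ := b / (2 * (S.vol.real Set.univ + 1)) with hσdef
  have hσ : 0 < σ := by positivity
  obtain ⟨C, hC, hdom⟩ := dominate isCompact_box hφ hψ h0 hz hσ
  have hs : ∀ᶠ n in atTop, C * R.avg ψ n < b / 2 := by
    have := hlim.const_mul C
    rw [mul_zero] at this
    exact this.eventually_lt_const (half_pos hb)
  refine hs.mono fun n hn => ?_
  have key := integral_mono (S.integrable (R.continuous_pair φ hφ n))
    ((integrable_const σ).fadd ((S.integrable (R.continuous_pair ψ hψ n)).const_mul C))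
    fun x => hdom _ ((R.A n).mem_box x)
  rw [integral_add (integrable_const _) ((S.integrable (R.continuous_pair ψ hψ n)).const_mul C),
    integral_const, integral_const_mul, smul_eq_mul] at key
  have h2 : S.vol.real Set.univ * σ ≤ b / 2 := by
    rw [hσdef, mul_div_assoc', div_le_iff₀ (by positivity)]
    nlinarith
  unfold avg at hn ⊢
  linarith

/-- The defect from the ideal limit set is null. -/
lemma defect_null (hG : Continuous fun z : ℝ × ℝ => G z.1 z.2)
    (hG0 : ∀ s t, 0 ≤ s → 0 ≤ t → qC s + qC t ≤ 2 → 0 ≤ G s t) :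
    Tendsto (R.avg (defectOf G)) atTop (𝓝 0) := by
  let pen : ℝ × ℝ → ℝ := fun z => max (-z.1) 0 + max (-z.2) 0 + max (qC z.1 + qC z.2 - 2) 0
  have := continuous_qC
  have hpc : Continuous pen := by fun_prop
  have hp0 : ∀ z, 0 ≤ pen z := fun z => by positivity
  have hneg : ∀ B : Approx S, ∫ x, max (-B.f x) 0 ∂S.vol ≤ S.vol.real Set.univ * B.ε := fun B => by
    refine (integral_mono (S.integrable (f := fun x => max (-B.f x) 0)
      ((B.continuous_f.neg).max continuous_const))
      (integrable_const B.ε) fun x => max_le ?_ B.hε.1.le).trans_eq (by simp)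
    linarith [(B.band x).1.1]
  have hpen : Tendsto (R.avg pen) atTop (𝓝 0) := by
    have h := ((R.accuracy.const_mul (2 * S.vol.real Set.univ))).add R.above
    rw [mul_zero, zero_add] at h
    refine squeeze_zero (fun n => integral_nonneg fun x => hp0 _) (fun n => ?_) h
    have cf := (R.A n).continuous_f
    have cg := (R.A n).continuous_g
    have i1 : Integrable (fun x => max (-(R.A n).f x) 0) S.vol := S.integrable (by fun_prop)
    have i2 : Integrable (fun x => max (-(R.A n).g x) 0) S.vol := S.integrable (by fun_prop)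
    have i3 : Integrable (fun x => max (qC ((R.A n).f x) + qC ((R.A n).g x) - 2) 0) S.vol :=
      S.integrable (by fun_prop)
    simp only [avg, pen]
    rw [integral_add (i1.fadd i2) i3, integral_add i1 i2]
    have h1 := hneg (R.A n)
    have h2 := hneg (R.A n).symm
    simp only [Approx.symm] at h2
    linarith
  -- the negative part of `G`
  have hm : Tendsto (R.avg fun z => max (-G z.1 z.2) 0) atTop (𝓝 0) :=
    R.null_of_null (hG.neg.max continuous_const) hpc (fun _ _ => le_max_right _ _)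
      (fun z _ => hp0 z) (fun z _ hz => by
        have a1 : 0 ≤ max (-z.1) 0 := le_max_right _ _
        have a2 : 0 ≤ max (-z.2) 0 := le_max_right _ _
        have a3 : 0 ≤ max (qC z.1 + qC z.2 - 2) 0 := le_max_right _ _
        simp only [pen] at hz
        refine max_le (neg_nonpos.2 (hG0 _ _ ?_ ?_ ?_)) le_rfl
        · linarith [le_max_left (-z.1) 0]
        · linarith [le_max_left (-z.2) 0]
        · linarith [le_max_left (qC z.1 + qC z.2 - 2) 0]) hpen
  refine tendsto_order.2 ⟨fun b hb => .of_forall fun n =>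
    hb.trans_le (integral_nonneg fun x => defectOf_nonneg G _), fun b hb => ?_⟩
  filter_upwards [R.gate (b / 4) (by linarith),
    (hm.add hpen).eventually_lt_const (show (0 : ℝ) + 0 < b / 2 by linarith)] with n h1 h2
  have iG : Integrable (fun x => G ((R.A n).f x) ((R.A n).g x)) S.vol :=
    S.integrable (R.continuous_pair _ hG n)
  have im : Integrable (fun x => max (-G ((R.A n).f x) ((R.A n).g x)) 0) S.vol :=
    S.integrable (R.continuous_pair _ (hG.neg.max continuous_const) n)
  have ip : Integrable (fun x => pen ((R.A n).f x, (R.A n).g x)) S.vol :=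
    S.integrable (R.continuous_pair _ hpc n)
  have key : R.avg (defectOf G) n = (∫ x, G ((R.A n).f x) ((R.A n).g x) ∂S.vol) +
      R.avg (fun z => max (-G z.1 z.2) 0) n + R.avg pen n := by
    simp only [avg]
    rw [← integral_add iG im, ← integral_add (iG.fadd im) ip]
    refine integral_congr_ae (.of_forall fun x => ?_)
    simp only [defectOf, pen]
    rcases le_total (G ((R.A n).f x) ((R.A n).g x)) 0 with h | h
    · rw [max_eq_right h, max_eq_left (neg_nonneg.2 h)]; ring
    · rw [max_eq_left h, max_eq_right (neg_nonpos.2 h)]; ring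
  rw [key]
  linarith

omit [CompactSpace X] [BorelSpace X] in
lemma continuous_defectOf (hG : Continuous fun z : ℝ × ℝ => G z.1 z.2) :
    Continuous (defectOf G) := by
  have := continuous_qC
  unfold defectOf
  exact (hG.max continuous_const).add (by fun_prop)

/-- A null function stays null against the squared gradients. -/
lemma grad_null {ψ : ℝ × ℝ → ℝ} (hψ : Continuous ψ) (h0 : ∀ z ∈ box, 0 ≤ ψ z)
    (hlim : Tendsto (R.avg ψ) atTop (𝓝 0)) :
    Tendsto (fun n => ∫ x, ψ ((R.A n).f x, (R.A n).g x) * (R.A n).energyDensity x ∂S.vol) atTop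
      (𝓝 0) := by
  have hC : (0 : ℝ) ≤ 46 + 7 * capLevel := by linarith [capLevel_nonneg]
  obtain ⟨Q, hQ⟩ := Approx.moments (S := S) 1 hC
  obtain ⟨Cψ, hCψ⟩ := isCompact_box.exists_bound_of_continuousOn hψ.continuousOn
  set V := S.vol.real Set.univ
  have hV : 0 ≤ V := measureReal_nonneg
  refine tendsto_order.2 ⟨fun b hb => .of_forall fun n => hb.trans_le (integral_nonneg fun x =>
    mul_nonneg (h0 _ ((R.A n).mem_box x)) ((R.A n).energyDensity_nonneg x)), fun b hb => ?_⟩
  set T := 2 * |Cψ| * (|Q| * (V + 1)) with hT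
  have hT0 : 0 ≤ T := by positivity
  set M := 2 * T / b + 1 with hMdef
  have hM : 0 < M := by positivity
  filter_upwards [(hlim.const_mul M).eventually_lt_const (show M * 0 < b / 2 by linarith),
    (R.lapErr.const_mul M).eventually_lt_const (show M * 0 < 1 by linarith)] with n hn hσ
  set A := R.A n
  set w : X → ℝ := fun x => weight 1 M (A.energyDensity x) * A.energyDensity x
  have cw : Continuous w :=
    ((contDiff_weight _ _).continuous.comp A.continuous_energyDensity).mul A.continuous_energyDensity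
  have cψ := R.continuous_pair ψ hψ n
  have i1 : Integrable (fun x => ψ (A.f x, A.g x)) S.vol := S.integrable cψ
  have i2 : Integrable w S.vol := S.integrable cw
  have key := integral_mono (S.integrable (f := fun x => ψ (A.f x, A.g x) * A.energyDensity x)
    (cψ.mul A.continuous_energyDensity))
    ((i1.const_mul M).fadd (i2.const_mul (2 * |Cψ| / M))) fun x => by
      have hR := A.energyDensity_nonneg x
      have hp := h0 _ (A.mem_box x)
      have hw0 : 0 ≤ w x := mul_nonneg (weight_bounds hM hR).1 hR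
      rcases le_or_gt (A.energyDensity x) M with h | h
      · have := mul_le_mul_of_nonneg_left h hp
        have : 0 ≤ 2 * |Cψ| / M * w x := by positivity
        linarith
      · have hq : √(1 + (A.energyDensity x / M) ^ 2) ≤ 2 * (A.energyDensity x / M) := by
          have h1 : 1 ≤ A.energyDensity x / M := by rw [le_div_iff₀ hM]; linarith
          rw [Real.sqrt_le_left (by positivity)]
          nlinarith
        have hw : M / 2 ≤ weight 1 M (A.energyDensity x) := by
          rw [weight, pow_one, trunc, le_div_iff₀ (Real.sqrt_pos.2 (by positivity))]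
          refine (mul_le_mul_of_nonneg_left hq (by linarith)).trans_eq ?_
          field_simp
        have h1 : A.energyDensity x ≤ 2 / M * w x := by
          rw [div_mul_eq_mul_div, le_div_iff₀ hM]
          have := mul_le_mul_of_nonneg_right hw hR
          simp only [w]
          linarith
        have hle : ψ (A.f x, A.g x) ≤ |Cψ| :=
          (le_abs_self _).trans ((hCψ _ (A.mem_box x)).trans (le_abs_self _))
        have h2 := mul_le_mul hle h1 hR (abs_nonneg _)
        have : 0 ≤ M * ψ (A.f x, A.g x) := mul_nonneg hM.le hp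
        have e : |Cψ| * (2 / M * w x) = 2 * |Cψ| / M * w x := by ring
        linarith
  rw [integral_add (i1.const_mul _) (i2.const_mul _), integral_const_mul, integral_const_mul] at key
  have hq := hQ A M hM A.lapErr A.continuous_lapErr A.abs_laps_le_lapErr
  have hh : 0 ≤ ∫ x, weight 1 M (A.energyDensity x) * A.hessDensity x ∂S.vol :=
    integral_nonneg fun x => mul_nonneg (weight_bounds hM (A.energyDensity_nonneg x)).1
      (A.hessDensity_nonneg x)
  have hs : 0 ≤ ∫ x, A.lapErr x ^ 2 ∂S.vol := integral_nonneg fun x => sq_nonneg _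
  rw [pow_one] at hq
  have hw1 : ∫ x, w x ∂S.vol ≤ |Q| * (V + 1) := by
    have h1 : ∫ x, w x ∂S.vol ≤ Q * (V + M * ∫ x, A.lapErr x ^ 2 ∂S.vol) := by linarith
    exact h1.trans ((mul_le_mul_of_nonneg_right (le_abs_self Q) (by positivity)).trans
      (mul_le_mul_of_nonneg_left (by linarith) (abs_nonneg Q)))
  have h3 := mul_le_mul_of_nonneg_left hw1 (show 0 ≤ 2 * |Cψ| / M by positivity)
  have h4 : 2 * |Cψ| / M * (|Q| * (V + 1)) < b / 2 := by
    rw [div_mul_eq_mul_div, ← hT, div_lt_iff₀ hM, hMdef, mul_add, mul_div_assoc']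
    have : b / 2 * (2 * T) / b = T := by field_simp
    linarith
  unfold avg at hn
  linarith

end Run

end

end Vale.Agent.P211.Analytic
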