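import Mathlib
import Vale.Agent.P211.Analytic.EndGame.Gate

/-!
P211, module G (note 1326): from barriers close to two continuous functions, shrunk by a factor
near one so that their cubes add up to at most two, a run of almost solutions.
-/

open MeasureTheory Filter Topology
open scoped ContDiff

namespace Vale.Agent.P211.Analytic

noncomputable section

variable {X : Type*} [TopologicalSpace X] [MeasurableSpace X] (S : ScalarGeom X)

/-- Smooth subsolving barriers whose cubes are uniformly close to `x` and `y`. -/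
def Barriers (x y : X → ℝ) : Prop :=
  ∀ e₀ > 0, ∀ η > 0, ∃ l₁ l₂ : X → ℝ, S.Smooth l₁ ∧ S.Smooth l₂ ∧
    (∀ z, l₁ z ∈ Set.Icc (0 : ℝ) 2 ∧ l₂ z ∈ Set.Icc (0 : ℝ) 2) ∧
    (∀ z, react (l₁ z) - e₀ ≤ S.lap l₁ z) ∧
    (∀ z, react (l₂ z) - e₀ ≤ S.lap l₂ z) ∧
    (∀ z, l₁ z ^ 3 + l₂ z ^ 3 ≤ 2 + η) ∧
    ∀ z, |l₁ z ^ 3 - x z| ≤ η ∧ |l₂ z ^ 3 - y z| ≤ η

/-- A shrunk barrier is a barrier. -/
lemma shrink_barrier {l : X → ℝ} (hl : S.Smooth l) {c : ℝ} (hc : c ∈ Set.Icc (0 : ℝ) (1 / 4))
    (hb : ∀ z, l z ∈ Set.Icc (0 : ℝ) 2) (hs : ∀ z, react (l z) - c ≤ S.lap l z) :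
    S.Smooth (fun z => (1 - c) * l z) ∧ ∀ z, (1 - c) * l z ∈ Set.Icc (0 : ℝ) 2 ∧
      react ((1 - c) * l z) - 97 * c ≤ S.lap (fun y => (1 - c) * l y) z ∧
      ((1 - c) * l z) ^ 3 ≤ l z ^ 3 ∧ l z ^ 3 - ((1 - c) * l z) ^ 3 ≤ 24 * c ∧
      ((1 - c) * l z) ^ 3 ≤ (1 - c) * l z ^ 3 := by
  set m := 1 - c with hm
  obtain ⟨hc0, hc1⟩ := hc
  have hsm : S.Smooth fun z => m * l z := by
    simpa using S.smooth_lin hl (S.smooth_const 0) m 1
  refine ⟨hsm, fun z => ?_⟩
  obtain ⟨h0, h2⟩ := hb z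
  have m0 : 0 ≤ m := by linarith
  have m1 : m ≤ 1 := by linarith
  have e : S.lap (fun y => m * l y) z = m * S.lap l z := by
    have h2 := S.hess_lin hl (S.smooth_const 0) m 1 z
    simp only [S.hess_const] at h2
    simp only [mul_zero, add_zero, smul_zero] at h2
    simp only [ScalarGeom.lap, h2, Matrix.trace_smul, smul_eq_mul]
  have l3 : 0 ≤ l z ^ 3 ∧ l z ^ 3 ≤ 8 :=
    ⟨pow_nonneg h0 3, (pow_le_pow_left₀ h0 h2 3).trans_eq (by norm_num)⟩
  have m3 : 1 - m ^ 3 ≤ 3 * c := by rw [hm]; nlinarith [mul_nonneg (mul_nonneg hc0 hc0) (show 0 ≤ 3 - c by linarith)]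
  have m30 : 0 ≤ 1 - m ^ 3 := sub_nonneg.2 (pow_le_one₀ m0 m1)
  refine ⟨⟨mul_nonneg m0 h0, (mul_le_of_le_one_left h0 m1).trans h2⟩, ?_, ?_, ?_, ?_⟩
  · rw [e]
    have h4 := mul_le_mul_of_nonneg_left (hs z) m0
    have h5 : 2 * m * l z * l z ^ 3 * (1 - m ^ 3) ≤ 96 * c := by
      have a1 : 2 * m * l z ≤ 4 := by nlinarith
      have a2 := mul_le_mul a1 l3.2 l3.1 (by norm_num)
      exact (mul_le_mul a2 m3 m30 (by norm_num)).trans_eq (by ring)
    have h6 : m * c ≤ c := mul_le_of_le_one_left hc0 m1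
    simp only [react] at h4 ⊢
    linarith
  · rw [mul_pow]; exact mul_le_of_le_one_left l3.1 (pow_le_one₀ m0 m1)
  · rw [mul_pow]
    have := mul_le_mul m3 l3.2 l3.1 (by linarith)
    linarith
  · rw [mul_pow]
    exact mul_le_mul_of_nonneg_right (pow_le_of_le_one m0 m1 three_ne_zero) l3.1

variable [CompactSpace X] [BorelSpace X]

lemma sq_mean_tendsto {h : ℕ → X → ℝ} (hc : ∀ n, Continuous (h n)) (h0 : ∀ n x, 0 ≤ h n x)
    {a : ℕ → ℝ} (ha : Tendsto a atTop (𝓝 0)) (hle : ∀ n, ∫ x, h n x ^ 2 ∂S.vol ≤ a n) :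
    Tendsto (fun n => ∫ x, h n x ∂S.vol) atTop (𝓝 0) := by
  refine tendsto_order.2 ⟨fun b hb => .of_forall fun n => hb.trans_le (integral_nonneg (h0 n)),
    fun b hb => ?_⟩
  set σ := b / (2 * (S.vol.real Set.univ + 1)) with hσdef
  have hV : 0 ≤ S.vol.real Set.univ := measureReal_nonneg
  have hσ : 0 < σ := by positivity
  refine (ha.eventually_lt_const (show (0 : ℝ) < b * σ by positivity)).mono fun n hn => ?_
  have i2 : Integrable (fun x => h n x ^ 2) S.vol := S.integrable ((hc n).pow 2)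
  have key := integral_mono ((S.integrable (hc n)).const_mul (4 * σ))
    ((integrable_const (4 * σ ^ 2)).fadd i2) fun x => by nlinarith [sq_nonneg (h n x - 2 * σ)]
  rw [integral_const_mul, integral_add (integrable_const _) i2, integral_const, smul_eq_mul] at key
  have h2 : σ * (2 * (S.vol.real Set.univ + 1)) = b := by
    rw [hσdef, div_mul_cancel₀ _ (by positivity)]
  refine lt_of_mul_lt_mul_left ?_ (show 0 ≤ 4 * σ by linarith)
  nlinarith [hle n]

/-- The mean of the error in the bound of a Laplacian from below. -/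
lemma lapLow_le (A : Approx S) {ν : ℝ} (hν : ν ≤ 1) (hε : A.ε ≤ ν)
    (h1 : ∫ x, A.below x ^ 2 ∂S.vol ≤ ν ^ 2) (h2 : ∫ x, A.excess x ^ 2 ∂S.vol ≤ ν ^ 2)
    (h3 : ∫ x, A.res x ^ 2 ∂S.vol ≤ ν ^ 2) :
    ∫ x, A.lapLow x ∂S.vol ≤ ν * (442 * (S.vol.real Set.univ + 1)) := by
  set V := S.vol.real Set.univ
  have hV : 0 ≤ V := measureReal_nonneg
  have hν0 : 0 < ν := A.hε.1.trans_le hε
  have mean : ∀ {u : X → ℝ}, Continuous u → ∫ x, u x ^ 2 ∂S.vol ≤ ν ^ 2 →
      ∫ x, u x ∂S.vol ≤ ν * (V + 1) / 2 := fun {u} hu hb => by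
    have i2 : Integrable (fun x => u x ^ 2) S.vol := S.integrable (hu.pow 2)
    have key := integral_mono ((S.integrable hu).const_mul (2 * ν))
      ((integrable_const (ν ^ 2)).fadd i2) fun x => by nlinarith [sq_nonneg (u x - ν)]
    rw [integral_const_mul, integral_add (integrable_const _) i2, integral_const, smul_eq_mul] at key
    refine le_of_mul_le_mul_left (?_ : 2 * ν * _ ≤ 2 * ν * _) (by linarith)
    linarith
  have m1 := mean A.continuous_below h1
  have m2 := mean A.continuous_excess h2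
  have m3 := mean A.continuous_res.abs (by simpa [sq_abs] using h3)
  have i1 := (S.integrable A.continuous_below).fadd (integrable_const A.ε)
  have i2 := S.integrable A.continuous_excess
  have i3 := S.integrable A.continuous_res.abs
  have e : ∫ x, A.lapLow x ∂S.vol = 220 * ((∫ x, A.below x ∂S.vol) + V * A.ε) +
      (∫ x, A.excess x ∂S.vol) + ∫ x, |A.res x| ∂S.vol := by
    unfold Approx.lapLow
    rw [integral_add ((i1.const_mul 220).fadd i2) i3, integral_add (i1.const_mul 220) i2,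
      integral_const_mul, integral_add (S.integrable A.continuous_below) (integrable_const _),
      integral_const, smul_eq_mul]
  have := mul_le_mul_of_nonneg_left hε hV
  rw [e]
  linarith [mul_nonneg hν0.le hV]

/-- A run of almost solutions. -/
theorem exists_run {G : ℝ → ℝ → ℝ} (hgate : Gate S G) {x y : X → ℝ} (hB : Barriers S x y) :
    Nonempty (Run S x y G) := by
  set V := S.vol.real Set.univ
  have hV : 0 ≤ V := measureReal_nonneg
  have step : ∀ n : ℕ, ∃ A : Approx S, A.ε ≤ 1 / ((n : ℝ) + 1) ∧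
      (∫ p, A.below p ^ 2 ∂S.vol) ≤ 1 / ((n : ℝ) + 1) ∧
      (∫ p, A.symm.below p ^ 2 ∂S.vol) ≤ 1 / ((n : ℝ) + 1) ∧
      (∫ p, A.lapLow p ∂S.vol) ≤ 442 * (V + 1) / ((n : ℝ) + 1) ∧
      (∫ p, A.symm.lapLow p ∂S.vol) ≤ 442 * (V + 1) / ((n : ℝ) + 1) ∧
      (∫ p, A.lapErr p ^ 2 ∂S.vol) ≤ 1 / ((n : ℝ) + 1) ∧
      (∫ p, max (qC (A.f p) + qC (A.g p) - 2) 0 ∂S.vol) ≤ 125 * (2 * V + 1) / ((n : ℝ) + 1) ∧
      (∫ p, G (A.f p) (A.g p) ∂S.vol) ≤ 1 / ((n : ℝ) + 1) ∧
      ∀ p, |A.l₁ p ^ 3 - x p| ≤ 25 / ((n : ℝ) + 1) ∧ |A.l₂ p ^ 3 - y p| ≤ 25 / ((n : ℝ) + 1) := by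
    intro n
    set δ := 1 / ((n : ℝ) + 1) with hδdef
    have hn1 : (1 : ℝ) ≤ (n : ℝ) + 1 := by linarith [n.cast_nonneg (α := ℝ)]
    have hn0 : (0 : ℝ) < (n : ℝ) + 1 := by linarith
    have hδ : 0 < δ := by positivity
    have hδ1 : δ ≤ 1 := (div_le_one (by positivity)).2 hn1
    obtain ⟨β, hβ₀, hβ12, ν₀, hν₀, hG⟩ := hgate δ hδ ((capLevel + 1) * ((n : ℝ) + 1))
    set ν := min ν₀ (δ ^ 2) with hνdef
    have hν : 0 < ν := lt_min hν₀ (by positivity)
    have hνsq : ν ≤ δ ^ 2 := min_le_right _ _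
    have hδsq : δ ^ 2 ≤ δ := by nlinarith
    obtain ⟨e₀, he₀, hA⟩ := exists_approx S hβ12 hν
    set c := min (min δ (1 / 4)) (min (e₀ / 97) (ν₀ / 97)) with hcdef
    have hc : 0 < c := by
      simp only [hcdef, lt_min_iff]
      exact ⟨⟨hδ, by norm_num⟩, by linarith, by linarith⟩
    have hcδ : c ≤ δ := (min_le_left _ _).trans (min_le_left _ _)
    have hc4 : c ≤ 1 / 4 := (min_le_left _ _).trans (min_le_right _ _)
    have hce : 97 * c ≤ e₀ := by
      have : c ≤ e₀ / 97 := (min_le_right _ _).trans (min_le_left _ _)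
      linarith
    have hcν : 97 * c ≤ ν₀ := by
      have : c ≤ ν₀ / 97 := (min_le_right _ _).trans (min_le_right _ _)
      linarith
    obtain ⟨m₁, m₂, hm₁, hm₂, hmb, hms₁, hms₂, hsum, hclose⟩ := hB c hc c hc
    obtain ⟨hl₁, q₁⟩ := shrink_barrier S hm₁ ⟨hc.le, hc4⟩ (fun z => (hmb z).1) hms₁
    obtain ⟨hl₂, q₂⟩ := shrink_barrier S hm₂ ⟨hc.le, hc4⟩ (fun z => (hmb z).2) hms₂
    obtain ⟨A, r1, r2, r5, r6, hε, hw1, hw2, hu1, hu2, hΦ, hle, hE, hlay⟩ :=
      hA (fun z => (1 - c) * m₁ z) (fun z => (1 - c) * m₂ z) (97 * c) hl₁ hl₂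
        (fun p => ⟨(q₁ p).1, (q₂ p).1⟩) (by linarith) hce (fun p => (q₁ p).2.1)
        (fun p => (q₂ p).2.1) fun p => by
        have h3 := mul_le_mul_of_nonneg_left (hsum p) (show 0 ≤ 1 - c by linarith)
        have h4 := mul_nonneg hc.le hc.le
        linarith [(q₁ p).2.2.2.2, (q₂ p).2.2.2.2]
    have hmin : ν ≤ ν₀ := min_le_left _ _
    have hmin' : ν ≤ δ := hνsq.trans hδsq
    have hsmall : A.Small ν₀ :=
      ⟨by rw [r6]; exact hcν, hε.trans hmin, hw1.trans hmin, hw2.trans hmin, hu1.trans hmin,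
        hu2.trans hmin, hΦ.trans hmin, hle.trans hmin, hE, hlay⟩
    have hres : (∫ p, A.res p ^ 2 ∂S.vol) ≤ δ ^ 2 := A.res_sq.trans (hε.trans hνsq)
    have hres' : (∫ p, A.symm.res p ^ 2 ∂S.vol) ≤ δ ^ 2 :=
      A.symm.res_sq.trans (hε.trans hνsq)
    refine ⟨A, hε.trans hmin', hw1.trans hmin', hw2.trans hmin', ?_, ?_, hle.trans hmin', ?_,
      hG A r5 hsmall, fun p => ⟨?_, ?_⟩⟩
    · rw [← one_div_mul_eq_div, ← hδdef]
      exact lapLow_le S A hδ1 (hε.trans hmin') (hw1.trans hνsq) (hu1.trans hνsq) hres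
    · rw [← one_div_mul_eq_div, ← hδdef]
      exact lapLow_le S A.symm hδ1 (hε.trans hmin') (hw2.trans hνsq) (hu2.trans hνsq) hres'
    · have hβ0 : 0 < β := by linarith
      have hcap := capLevel_nonneg
      have ifi : Integrable A.phi S.vol := S.integrable A.continuous_phi
      have i1 : Integrable (fun p => max (A.phi p - capLevel) 0) S.vol :=
        S.integrable ((A.continuous_phi.sub continuous_const).max continuous_const)
      have hphi : ∫ p, A.phi p ∂S.vol ≤ (capLevel + 1) * (2 * V + 1) := by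
        have h1 := integral_le_half S (u := fun p => max (A.phi p - capLevel) 0)
          ((A.continuous_phi.sub continuous_const).max continuous_const) (hΦ.trans hmin')
        have h2 := integral_mono ifi ((integrable_const capLevel).fadd i1) fun p => by
          linarith [le_max_left (A.phi p - capLevel) 0]
        rw [integral_add (integrable_const _) i1, integral_const, smul_eq_mul] at h2
        nlinarith
      have key := integral_mono
        (S.integrable (f := fun p => max (qC (A.f p) + qC (A.g p) - 2) 0)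
          ((((continuous_qC.comp A.continuous_f).add (continuous_qC.comp A.continuous_g)).sub
            continuous_const).max continuous_const)) (ifi.const_mul (125 / β)) fun p => by
        have hq : ∀ s : ℝ, s ≤ 9 / 4 → qC s ≤ 61 := fun s hs => by
          have h0 := qC_of_nonpos (le_refl (0 : ℝ))
          rcases le_total s 0 with h | h
          · rw [qC_of_nonpos h]; norm_num
          · have := (convex_Icc (0 : ℝ) (9 / 4)).norm_image_sub_le_of_norm_hasDerivWithin_le
              (fun r _ => (hasDerivAt_qC r).hasDerivWithinAt)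
              (fun r _ => (Real.norm_eq_abs _).trans_le
                (abs_le.2 ⟨by linarith [(qC₁_bound r).1], (qC₁_bound r).2⟩))
              ⟨le_rfl, by norm_num⟩ ⟨h, hs⟩
            rw [h0, sub_zero, sub_zero, Real.norm_eq_abs, Real.norm_eq_abs, abs_of_nonneg h] at this
            linarith [le_abs_self (qC s)]
        have e : 125 / β * A.phi p = 125 * ramp (qC (A.f p) + qC (A.g p) - 2) := by
          rw [Approx.phi, r5]; field_simp
        rw [e]
        set s := qC (A.f p) + qC (A.g p) - 2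
        have hs : s ≤ 125 := by
          linarith [hq _ (le_of_abs_le (A.abs_f_le p)), hq _ (le_of_abs_le (A.abs_g_le p))]
        refine max_le ?_ (by linarith [(ramp_bound s).1])
        rcases le_total s 1 with h | h
        · rcases le_total s 0 with h0 | h0
          · linarith [(ramp_bound s).1]
          · rw [ramp, min_eq_left h, max_eq_right h0]; linarith
        · rw [ramp, min_eq_right h, max_eq_right zero_le_one]; linarith
      rw [integral_const_mul] at key
      refine key.trans ?_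
      rw [div_mul_eq_mul_div, div_le_div_iff₀ hβ0 hn0]
      have h3 := mul_le_mul_of_nonneg_right hphi hn0.le
      have h4 := mul_le_mul_of_nonneg_left hβ₀ (show 0 ≤ 2 * V + 1 by linarith)
      linarith
    · rw [r1, show 25 / ((n : ℝ) + 1) = 25 * δ by rw [hδdef]; ring, abs_le]
      obtain ⟨-, -, a1, a2, -⟩ := q₁ p
      constructor <;> linarith [abs_le.1 (hclose p).1]
    · rw [r2, show 25 / ((n : ℝ) + 1) = 25 * δ by rw [hδdef]; ring, abs_le]
      obtain ⟨-, -, a1, a2, -⟩ := q₂ p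
      constructor <;> linarith [abs_le.1 (hclose p).2]
  choose A h1 h2 h3 h4 h5 h6 h7 h8 h9 using step
  have hz : ∀ a : ℝ, Tendsto (fun n : ℕ => a / ((n : ℝ) + 1)) atTop (𝓝 0) := fun a => by
    simpa [div_eq_mul_inv] using (tendsto_one_div_add_atTop_nhds_zero_nat (𝕜 := ℝ)).const_mul a
  have low0 : ∀ (B : Approx S) (p : X), 0 ≤ B.lapLow p := fun B p => by
    have := B.hε.1
    have := (B.below_bounds p).1
    have : 0 ≤ B.excess p := le_max_right _ _
    unfold Approx.lapLow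
    positivity
  exact ⟨{
    A := A
    accuracy := squeeze_zero (fun n => (A n).hε.1.le) h1 (hz 1)
    below₁ := sq_mean_tendsto S (fun n => (A n).continuous_below)
      (fun n p => ((A n).below_bounds p).1) (hz 1) h2
    below₂ := sq_mean_tendsto S (fun n => (A n).symm.continuous_below)
      (fun n p => ((A n).symm.below_bounds p).1) (hz 1) h3
    low₁ := squeeze_zero (fun n => integral_nonneg (low0 (A n))) h4 (hz _)
    low₂ := squeeze_zero (fun n => integral_nonneg (low0 (A n).symm)) h5 (hz _)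
    lapErr := squeeze_zero (fun n => integral_nonneg fun p => sq_nonneg _) h6 (hz 1)
    above := squeeze_zero (fun n => integral_nonneg fun p => le_max_right _ _) h7 (hz _)
    gate := fun δ hδ => ((hz 1).eventually_le_const hδ).mono fun n hn => (h8 n).trans hn
    limit₁ := fun δ hδ => ((hz 25).eventually_le_const hδ).mono fun n hn p => (h9 n p).1.trans hn
    limit₂ := fun δ hδ => ((hz 25).eventually_le_const hδ).mono fun n hn p => (h9 n p).2.trans hn }⟩

end

end Vale.Agent.P211.Analytic
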