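import Mathlib
import Vale.Agent.P211.Analytic.Facade
import Vale.Agent.P211.Analytic.Level

/-!
P211, module G (note 1326): the smooth positive part above `3/5`, its margin against the reaction
inside the level, and two facts on integrals of continuous functions.
-/

open MeasureTheory Filter Topology
open scoped ContDiff

namespace Vale.Agent.P211.Analytic

noncomputable section

/-- The smooth positive part above `c`, zero below `c + d`. -/
def lift (c d s : ℝ) : ℝ := ∫ t in (c + d)..s, Real.smoothTransition ((t - c - d) / d)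

lemma lift_spec (c : ℝ) {d : ℝ} (hd : 0 < d) :
    ContDiff ℝ ∞ (lift c d) ∧ (∀ s, 0 ≤ deriv (lift c d) s ∧ deriv (lift c d) s ≤ 1) ∧
      (∀ s ≤ c + d, lift c d s = 0 ∧ deriv (lift c d) s = 0) ∧
      ∀ s, 0 ≤ lift c d s ∧ |lift c d s - max (s - c) 0| ≤ 2 * d := by
  let ρ : ℝ → ℝ := fun t => Real.smoothTransition ((t - c - d) / d)
  have hρc : ContDiff ℝ ∞ ρ := Real.smoothTransition.contDiff.comp (by fun_prop)
  have hD : ∀ s, HasDerivAt (lift c d) (ρ s) s := fun s =>
    (hρc.continuous.integral_hasStrictDerivAt (c + d) s).hasDerivAt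
  have hder : deriv (lift c d) = ρ := funext fun s => (hD s).deriv
  have hdiff : Differentiable ℝ (lift c d) := fun s => (hD s).differentiableAt
  have h01 : ∀ s, 0 ≤ ρ s ∧ ρ s ≤ 1 := fun s =>
    ⟨Real.smoothTransition.nonneg _, Real.smoothTransition.le_one _⟩
  have hz : ∀ s ≤ c + d, ρ s = 0 := fun s hs => Real.smoothTransition.zero_of_nonpos
    (div_nonpos_of_nonpos_of_nonneg (by linarith) hd.le)
  have h0 : ∀ s ≤ c + d, lift c d s = 0 := fun s hs => by
    rw [lift, intervalIntegral.integral_congr (g := fun _ => (0 : ℝ)) fun t ht => ?_,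
      intervalIntegral.integral_zero]
    rw [Set.uIcc_of_ge hs] at ht
    exact hz t ht.2
  have hpos : ∀ s, 0 ≤ lift c d s := fun s => by
    rcases le_total s (c + d) with h | h
    · exact (h0 s h).ge
    · exact intervalIntegral.integral_nonneg h fun t _ => (h01 t).1
  have hup : ∀ s, c + d ≤ s → lift c d s ≤ s - (c + d) := fun s hs => by
    refine (intervalIntegral.integral_mono_on hs (hρc.continuous.intervalIntegrable _ _)
      (continuous_const (y := (1 : ℝ)).intervalIntegrable _ _) fun t _ => (h01 t).2).trans_eq ?_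
    simp
  have hlo : ∀ s, c + 2 * d ≤ s → s - (c + 2 * d) ≤ lift c d s := fun s hs => by
    have e := intervalIntegral.integral_add_adjacent_intervals (μ := volume)
      (hρc.continuous.intervalIntegrable (c + d) (c + 2 * d))
      (hρc.continuous.intervalIntegrable (c + 2 * d) s)
    have e1 : ∫ t in (c + 2 * d)..s, ρ t = ∫ _ in (c + 2 * d)..s, (1 : ℝ) :=
      intervalIntegral.integral_congr fun t ht => Real.smoothTransition.one_of_one_le (by
        rw [Set.uIcc_of_le hs] at ht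
        rw [le_div_iff₀ hd]
        linarith [ht.1])
    rw [intervalIntegral.integral_const, smul_eq_mul, mul_one] at e1
    have := intervalIntegral.integral_nonneg (μ := volume) (show c + d ≤ c + 2 * d by linarith)
      fun t _ => (h01 t).1
    change _ = lift c d s at e
    rw [e1] at e
    linarith
  refine ⟨contDiff_infty_iff_deriv.2 ⟨hdiff, hder ▸ hρc⟩, fun s => hder ▸ h01 s,
    fun s hs => ⟨h0 s hs, by rw [hder]; exact hz s hs⟩, fun s => ⟨hpos s, ?_⟩⟩
  rw [abs_le]
  have := hpos s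
  have := le_max_left (s - c) 0
  have := le_max_right (s - c) 0
  constructor
  · rcases le_total (c + 2 * d) s with h | h
    · rw [max_eq_left (by linarith : (0 : ℝ) ≤ s - c)]; linarith [hlo s h]
    · have : max (s - c) 0 ≤ 2 * d := max_le (by linarith) (by linarith)
      linarith
  · rcases le_total s (c + d) with h | h
    · rw [h0 s h]; linarith
    · linarith [hup s h]

/-- The part of a variable above `3/5`. -/
def top35 (s : ℝ) : ℝ := lift (3 / 5) (1 / 1000) s

/-- A smooth switch, one up to `3/5` and zero from `601/1000` on. -/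
def switch35 (s : ℝ) : ℝ := Real.smoothTransition (2000 * (6008 / 10000 - s))

lemma top35_spec : ContDiff ℝ ∞ top35 ∧ (∀ s, 0 ≤ deriv top35 s ∧ deriv top35 s ≤ 1) ∧
    (∀ s ≤ (601 / 1000 : ℝ), top35 s = 0 ∧ deriv top35 s = 0) ∧
    ∀ s, 0 ≤ top35 s ∧ max (s - 602 / 1000) 0 ≤ top35 s ∧ (s ≤ 9 / 4 → top35 s ≤ 2) := by
  obtain ⟨h1, h2, h3, h4⟩ := lift_spec (3 / 5) (show (0 : ℝ) < 1 / 1000 by norm_num)
  refine ⟨h1, h2, fun s hs => h3 s (by linarith), fun s => ?_⟩
  obtain ⟨a, b⟩ := h4 s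
  obtain ⟨b1, b2⟩ := abs_le.1 b
  refine ⟨a, max_le ?_ a, fun hs => ?_⟩
  · show s - 602 / 1000 ≤ lift (3 / 5) (1 / 1000) s
    linarith [le_max_left (s - 3 / 5) 0]
  · have : max (s - 3 / 5) 0 ≤ 9 / 4 - 3 / 5 := max_le (by linarith) (by norm_num)
    show lift (3 / 5) (1 / 1000) s ≤ 2
    linarith

lemma contDiff_switch35 : ContDiff ℝ ∞ switch35 :=
  Real.smoothTransition.contDiff.comp (by fun_prop : ContDiff ℝ ∞ fun s : ℝ => 2000 * (6008 / 10000 - s))

lemma switch35_spec : (∀ s, 0 ≤ switch35 s ∧ switch35 s ≤ 1) ∧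
    (∀ s ≤ (3 / 5 : ℝ), switch35 s = 1 ∧ deriv switch35 s = 0) ∧
    ∀ s, (601 / 1000 : ℝ) ≤ s → switch35 s = 0 ∧ deriv switch35 s = 0 := by
  have h1 : ∀ s < (6003 / 10000 : ℝ), switch35 s = 1 := fun s hs =>
    Real.smoothTransition.one_of_one_le (by linarith)
  have h0 : ∀ s > (6008 / 10000 : ℝ), switch35 s = 0 := fun s hs =>
    Real.smoothTransition.zero_of_nonpos (by linarith)
  refine ⟨fun s => ⟨Real.smoothTransition.nonneg _, Real.smoothTransition.le_one _⟩,
    fun s hs => ⟨h1 s (by linarith), ?_⟩, fun s hs => ⟨h0 s (by linarith), ?_⟩⟩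
  · exact (Filter.EventuallyEq.deriv_eq (f := fun _ => (1 : ℝ))
      ((eventually_lt_nhds (show s < 6003 / 10000 by linarith)).mono fun t ht => h1 t ht)).trans
      (deriv_const _ _)
  · exact (Filter.EventuallyEq.deriv_eq (f := fun _ => (0 : ℝ))
      ((eventually_gt_nhds (show 6008 / 10000 < s by linarith)).mono fun t ht => h0 t ht)).trans
      (deriv_const _ _)

/-- The softening is at most that of a vanishing second unknown. -/
lemma soft_top {s : ℝ} (h0 : 0 ≤ s) (h : s ≤ 127 / 100) (t : ℝ) :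
    soft s t ≤ 1 / 2 * s ^ 2 * max (2 - Cert.qLev s) 0 ^ 2 := by
  obtain ⟨c0, c1⟩ := cSoft_mem
  have he : eC s ≤ s ^ 2 := by
    rw [(eC_eq ⟨h0, h⟩).1, Cert.eLev]
    linarith [mul_nonneg (show (0 : ℝ) ≤ Cert.gamQ by norm_num [Cert.gamQ])
      (sq_nonneg (max (s - 11 / 10) 0))]
  have hm : max (2 - qC s - qC t) 0 ≤ max (2 - Cert.qLev s) 0 := by
    rw [← qC_eq ⟨h0, h⟩]
    exact max_le_max (by linarith [qC_nonneg t]) le_rfl
  exact mul_le_mul (mul_le_mul c1 he (eC_bound s).1 (by norm_num))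
    (pow_le_pow_left₀ (le_max_right _ _) hm 2) (sq_nonneg _) (by positivity)

/-- The margin: the softened reaction against the part above `3/5`. -/
lemma top35_margin {s : ℝ} (h0 : 0 ≤ s) (h : s ≤ 127 / 100) (t : ℝ) :
    top35 s * (2 * s ^ 4 - 2 * s + soft s t) ≤ 399 / 100 * top35 s ^ 2 := by
  obtain ⟨ha, hb, -⟩ := top35_spec.2.2.2 s
  rcases le_total s (601 / 1000) with h6 | h6
  · simp [(top35_spec.2.2.1 s h6).1]
  have hgam : Cert.gamQ ≤ 443 / 100 ∧ 0 ≤ Cert.gamQ := by norm_num [Cert.gamQ]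
  have hs := soft_top h0 h t
  set L := max (2 - Cert.qLev s) 0
  have hL0 : 0 ≤ L := le_max_right _ _
  have key : 2 * s ^ 4 - 2 * s + soft s t ≤ 399 / 100 * (s - 602 / 1000) := by
    rcases le_total s 1 with h1 | h1
    · have hq : Cert.qLev s = s ^ 3 := by rw [Cert.qLev, max_eq_right (by linarith)]; ring
      have h31 : s ^ 3 ≤ 1 := pow_le_one₀ h0 h1
      have hL : L = 2 - s ^ 3 := by simp only [L, hq]; exact max_eq_left (by linarith)
      have h12 : s * (2 - s ^ 3) ≤ 6 / 5 := by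
        nlinarith [sq_nonneg (s ^ 2 - 63 / 100), sq_nonneg (s - 794 / 1000)]
      have hsq := pow_le_pow_left₀ (mul_nonneg h0 (show 0 ≤ 2 - s ^ 3 by linarith)) h12 2
      rw [hL] at hs
      nlinarith [mul_nonneg (mul_nonneg (sub_nonneg.2 h6) (sub_nonneg.2 h1)) (sq_nonneg s),
        mul_nonneg (mul_nonneg (sub_nonneg.2 h6) (sub_nonneg.2 h1)) h0,
        mul_nonneg (sub_nonneg.2 h6) (sub_nonneg.2 h1)]
    rcases le_total s (6 / 5) with h2 | h2
    · have hq : 1 + 3 * (s - 1) ≤ Cert.qLev s := by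
        rw [Cert.qLev]
        rcases le_total s (11 / 10) with h3 | h3
        · rw [max_eq_right (by linarith)]
          nlinarith [sq_nonneg (s - 1), mul_nonneg (sq_nonneg (s - 1)) h0]
        · rw [max_eq_left (by linarith)]
          have hz : (s - 11 / 10) ^ 3 ≤ (1 / 10) ^ 3 := pow_le_pow_left₀ (by linarith) (by linarith) 3
          nlinarith [mul_le_mul hgam.1 hz (pow_nonneg (by linarith) 3) (by norm_num),
            mul_nonneg (sq_nonneg (s - 1)) h0]
      have hL : L ≤ 1 - 3 * (s - 1) := max_le (by linarith) (by linarith)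
      have h4 : s ^ 2 * L ^ 2 ≤ (6 / 5) ^ 2 * (1 - 3 * (s - 1)) ^ 2 :=
        mul_le_mul (pow_le_pow_left₀ h0 h2 2) (pow_le_pow_left₀ hL0 hL 2) (sq_nonneg _)
          (by norm_num)
      nlinarith [mul_nonneg (sub_nonneg.2 h1) (sub_nonneg.2 h2),
        mul_nonneg (mul_nonneg (sub_nonneg.2 h1) (sub_nonneg.2 h2)) h0,
        mul_nonneg (mul_nonneg (sub_nonneg.2 h1) (sub_nonneg.2 h2)) (sq_nonneg s)]
    have hq : 17235 / 10000 + 4187 / 1000 * (s - 6 / 5) ≤ Cert.qLev s := by
      rw [Cert.qLev, max_eq_left (by linarith)]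
      nlinarith [mul_le_mul_of_nonneg_right hgam.1 (pow_nonneg (show 0 ≤ s - 11 / 10 by linarith) 3),
        mul_nonneg (sq_nonneg (s - 6 / 5)) (sub_nonneg.2 h),
        sq_nonneg (s - 6 / 5)]
    rcases le_total (2765 / 10000) (4187 / 1000 * (s - 6 / 5)) with h5 | h5
    · have hL : L = 0 := max_eq_right (by linarith)
      rw [hL] at hs
      nlinarith [mul_nonneg (sub_nonneg.2 h2) (sub_nonneg.2 h),
        mul_nonneg (mul_nonneg (sub_nonneg.2 h2) (sub_nonneg.2 h)) h0,
        mul_nonneg (mul_nonneg (sub_nonneg.2 h2) (sub_nonneg.2 h)) (mul_nonneg h0 h0)]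
    · have hL : L ≤ 2765 / 10000 - 4187 / 1000 * (s - 6 / 5) := max_le (by linarith) (by linarith)
      have h4 : s ^ 2 * L ^ 2 ≤
          (127 / 100) ^ 2 * (2765 / 10000 - 4187 / 1000 * (s - 6 / 5)) ^ 2 :=
        mul_le_mul (pow_le_pow_left₀ h0 h 2) (pow_le_pow_left₀ hL0 hL 2) (sq_nonneg _) (by norm_num)
      have h7 : s ≤ 12662 / 10000 := by linarith
      nlinarith [mul_nonneg (sub_nonneg.2 h2) (sub_nonneg.2 h7),
        mul_nonneg (mul_nonneg (sub_nonneg.2 h2) (sub_nonneg.2 h7)) h0,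
        mul_nonneg (mul_nonneg (sub_nonneg.2 h2) (sub_nonneg.2 h7)) (mul_nonneg h0 h0)]
  calc top35 s * (2 * s ^ 4 - 2 * s + soft s t) ≤ top35 s * (399 / 100 * top35 s) :=
        mul_le_mul_of_nonneg_left
          (key.trans (mul_le_mul_of_nonneg_left ((le_max_left _ _).trans hb) (by norm_num))) ha
    _ = _ := by ring

variable {X : Type*} [TopologicalSpace X] [MeasurableSpace X] [CompactSpace X] [BorelSpace X]

/-- A continuous nonnegative function with nonpositive integral vanishes. -/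
lemma eq_zero_of_integral (S : ScalarGeom X) {h : X → ℝ} (hc : Continuous h) (h0 : ∀ x, 0 ≤ h x)
    (hi : ∫ x, h x ∂S.vol ≤ 0) : ∀ x, h x = 0 := by
  have h2 := (integral_eq_zero_iff_of_nonneg h0 (S.integrable hc)).1
    (le_antisymm hi (integral_nonneg h0))
  exact congrFun ((hc.ae_eq_iff_eq S.vol continuous_const).1 h2)

/-- Integrals pass to a uniform limit. -/
lemma tendsto_integral_of_near (S : ScalarGeom X) {h : ℕ → X → ℝ} {g : X → ℝ}
    (hh : ∀ n, Continuous (h n)) (hg : Continuous g)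
    (hu : ∀ σ > 0, ∀ᶠ n in atTop, ∀ x, |h n x - g x| ≤ σ) :
    Tendsto (fun n => ∫ x, h n x ∂S.vol) atTop (𝓝 (∫ x, g x ∂S.vol)) := by
  refine Metric.tendsto_nhds.2 fun ε hε => ?_
  have hV : 0 ≤ S.vol.real Set.univ := measureReal_nonneg
  refine (hu (ε / (2 * (S.vol.real Set.univ + 1))) (by positivity)).mono fun n hn => ?_
  rw [Real.dist_eq, ← integral_sub (S.integrable (hh n)) (S.integrable hg)]
  refine lt_of_le_of_lt (abs_integral_le_integral_abs.trans
    (integral_mono (S.integrable ((hh n).sub hg).abs) (integrable_const _) hn)) ?_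
  rw [integral_const, smul_eq_mul, mul_div_assoc', div_lt_iff₀ (by positivity)]
  nlinarith

end

end Vale.Agent.P211.Analytic
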