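import Mathlib
import Vale.Agent.P211.Analytic.Limit

/-!
P211, module G (note 1326): on a closed four-manifold with Ricci tensor three times the metric the
Dirichlet energy of a function of mean zero is at least four times its square integral.  The
Lichnerowicz bound on the Laplacian is transferred by almost solving `Lap U - t U = z` for small `t`.
-/

open MeasureTheory
open scoped ContDiff

namespace Vale.Agent.P211.Analytic

noncomputable section

variable {X : Type*} [TopologicalSpace X] [MeasurableSpace X]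

/-- The potential of `Lap u = t (u - c) + z` in the first variable, the second being idle. -/
def linPen (z : X → ℝ) (hz : Continuous z) {t B : ℝ} (ht : 0 < t) (hB : 0 ≤ B)
    (hzB : ∀ x, |z x| ≤ B) : Pen X where
  Ψ x s r := t / 2 * (s - B / t) ^ 2 + z x * s + r ^ 2 / 2
  Ψ₁ x s _ := t * (s - B / t) + z x
  Ψ₂ _ _ r := r
  Lp := t + 1
  M := 2 * B / t
  M_nonneg := by positivity
  Lp_nonneg := by positivity
  cont := by fun_prop
  cont₁ := by fun_prop
  cont₂ := by fun_prop
  deriv₁ x s r := by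
    refine HasDerivAt.congr_deriv ((((((hasDerivAt_id' s).sub_const (B / t)).fun_pow 2).const_mul
      (t / 2)).fun_add ((hasDerivAt_id' s).const_mul (z x))).add_const (r ^ 2 / 2)) ?_
    simp only [Nat.cast_ofNat, Nat.add_one_sub_one, pow_one]
    ring
  deriv₂ x s r := by
    refine HasDerivAt.congr_deriv
      ((((hasDerivAt_id' r).fun_pow 2).div_const 2).const_add (t / 2 * (s - B / t) ^ 2 + z x * s)) ?_
    simp only [Nat.cast_ofNat, Nat.add_one_sub_one, pow_one]
    ring
  lip₁ x s r s' r' := by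
    rw [show t * (s - B / t) + z x - (t * (s' - B / t) + z x) = t * (s - s') by ring, abs_mul,
      abs_of_pos ht]
    nlinarith [abs_nonneg (s - s'), abs_nonneg (r - r')]
  lip₂ x s r s' r' := by nlinarith [abs_nonneg (s - s'), abs_nonneg (r - r')]
  push₁ x s r := by
    have e : t * (B / t) = B := mul_div_cancel₀ B ht.ne'
    have e2 : t * (2 * B / t) = 2 * B := mul_div_cancel₀ _ ht.ne'
    obtain ⟨h1, h2⟩ := abs_le.1 (hzB x)
    constructor <;> intro hs
    · have := mul_nonpos_of_nonneg_of_nonpos ht.le hs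
      rw [mul_sub, e]
      linarith
    · have := mul_le_mul_of_nonneg_left hs ht.le
      rw [mul_sub, e]
      linarith
  push₂ x s r := ⟨id, fun hr => (show (0 : ℝ) ≤ 2 * B / t by positivity).trans hr⟩

variable [CompactSpace X] [BorelSpace X] (S : ScalarGeom X)

/-- Mean square from mean and bound. -/
lemma integral_sq_le_of_bound {u : X → ℝ} (hu : Continuous u) {C : ℝ} (hC : ∀ x, |u x| ≤ C) :
    ∫ x, u x ^ 2 ∂S.vol ≤ C * ∫ x, |u x| ∂S.vol := by
  rw [← integral_const_mul]
  refine integral_mono (S.integrable (hu.pow 2)) ((S.integrable hu.abs).const_mul C) fun x => ?_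
  rw [← sq_abs, sq]
  exact mul_le_mul_of_nonneg_right (hC x) (abs_nonneg _)

/-- The square integral of a function of mean zero is at most a quarter of its energy, with an
error that goes to zero. -/
lemma spectral_approx {z : X → ℝ} (hz : S.Smooth z) {κ t : ℝ}
    (hκ : κ ∈ Set.Ioc (0 : ℝ) (1 / 4)) (ht : t ∈ Set.Ioc (0 : ℝ) 1) {B : ℝ} (hB0 : 0 ≤ B)
    (hzB : ∀ x, |z x| ≤ B) :
    ∃ L R : ℝ, 0 ≤ R ∧ R ≤ t ∧
      (1 / 2 - κ) * L ≤ (∫ x, S.ip z z x ∂S.vol) / 8 + R / (4 * κ) ∧ 0 ≤ L ∧
      ∃ U : X → ℝ, S.Smooth U ∧ (∫ x, (S.lap U x) ^ 2 ∂S.vol) = L ∧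
        (∫ x, (S.lap U x - (t * U x + z x)) ^ 2 ∂S.vol) = R ∧
        ∀ x, |t * U x| ≤ B + 1 := by
  have cz := S.continuous_of_smooth hz
  set B' := B
  obtain ⟨f, g, hf, -, hband, hres, -⟩ := S.exists_almost_solution
    (linPen z cz ht.1 hB0 hzB) t ht.1
  set U : X → ℝ := fun x => f x - B' / t
  have hU : S.Smooth U := S.smooth_sub hf (S.smooth_const _)
  have hlap : ∀ x, S.lap U x = S.lap f x := fun x => by
    rw [S.lap_sub hf (S.smooth_const _)]
    simp [ScalarGeom.lap, S.hess_const]
  have hR : ∫ x, (S.lap U x - (t * U x + z x)) ^ 2 ∂S.vol ≤ t := by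
    simp only [hlap, U]
    exact hres.le
  refine ⟨_, _, integral_nonneg fun x => sq_nonneg _, hR, ?_,
    integral_nonneg fun x => sq_nonneg (S.lap U x), U, hU, rfl, rfl, fun x => ?_⟩
  · have cL := S.continuous_lap hU
    have cU := S.continuous_of_smooth hU
    have iL : Integrable (fun x => S.lap U x ^ 2) S.vol := S.integrable (cL.pow 2)
    have iR : Integrable (fun x => (S.lap U x - (t * U x + z x)) ^ 2) S.vol :=
      S.integrable (by fun_prop)
    have iA := S.integrable (S.continuous_ip hU hU)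
    have iD := S.integrable (S.continuous_ip hz hz)
    have iz : Integrable (fun x => z x * S.lap U x) S.vol := S.integrable (cz.mul cL)
    have iu : Integrable (fun x => t * (U x * S.lap U x)) S.vol :=
      S.integrable (continuous_const.mul (cU.mul cL))
    have key := integral_mono (((iL.const_mul (1 - κ)).sub' (iR.const_mul (1 / (4 * κ)))))
      (iz.fadd iu) fun x => ?_
    · rw [integral_sub (iL.const_mul _) (iR.const_mul _), integral_const_mul, integral_const_mul,
        integral_add iz iu, integral_const_mul, S.integral_mul_lap hU hz,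
        S.integral_mul_lap hU hU] at key
      have hA := integral_nonneg (μ := S.vol) (f := S.ip U U) (S.ip_self_nonneg U)
      have hY := integral_mono (S.integrable (f := fun x => -S.ip z U x)
        (S.continuous_ip hz hU).neg) ((iA.const_mul 2).fadd (iD.const_mul (1 / 8))) fun x => by
          simp only [ScalarGeom.ip, dotProduct, Finset.mul_sum, ← Finset.sum_add_distrib,
            ← Finset.sum_neg_distrib]
          exact Finset.sum_le_sum fun i _ => by
            nlinarith [sq_nonneg (S.grad z x i + 4 * S.grad U x i)]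
      rw [integral_neg, integral_add (iA.const_mul _) (iD.const_mul _), integral_const_mul,
        integral_const_mul] at hY
      have hL := S.lichnerowicz hU
      have := mul_nonneg ht.1.le hA
      rw [div_eq_mul_one_div _ (4 * κ)]
      linarith
    have h4 : 0 < 4 * κ := by linarith [hκ.1]
    show (1 - κ) * S.lap U x ^ 2 - 1 / (4 * κ) * (S.lap U x - (t * U x + z x)) ^ 2 ≤
      z x * S.lap U x + t * (U x * S.lap U x)
    set a := S.lap U x
    set r := a - (t * U x + z x) with hr
    have h5 : r * a ≤ κ * a ^ 2 + 1 / (4 * κ) * r ^ 2 := by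
      rw [show κ * a ^ 2 + 1 / (4 * κ) * r ^ 2 = ((2 * κ * a) ^ 2 + r ^ 2) / (4 * κ) by
        have := hκ.1; field_simp; ring, le_div_iff₀ h4]
      nlinarith [sq_nonneg (2 * κ * a - r)]
    simp only [hr] at h5 ⊢
    linarith
  · have h := (hband x).1
    have e : t * (B' / t) = B' := mul_div_cancel₀ _ ht.1.ne'
    have e2 : t * (2 * B' / t) = 2 * B' := mul_div_cancel₀ _ ht.1.ne'
    have h1 := mul_le_mul_of_nonneg_left h.1 ht.1.le
    have h2 := mul_le_mul_of_nonneg_left h.2 ht.1.le
    simp only [linPen, mul_add, e2] at h2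
    have h3 : t * t ≤ 1 := mul_le_one₀ ht.2 ht.1.le ht.2
    simp only [U, mul_sub, e]
    rw [abs_le]
    constructor <;> linarith

omit [TopologicalSpace X] [MeasurableSpace X] [CompactSpace X] [BorelSpace X] in
lemma spectral_arith {κ D L R t : ℝ} (hκ : 0 < κ) (hκ4 : κ ≤ 1 / 4) (hD : 0 ≤ D)
    (hL : (1 / 2 - κ) * L ≤ D / 8 + R / (4 * κ)) (hRt : R ≤ t) :
    4 * (1 + κ) * L ≤ D + 6 * κ * D + 4 * (1 + κ) / (1 / 2 - κ) * (t / (4 * κ)) := by
  have hk : 0 < 1 / 2 - κ := by linarith
  have h1 : L ≤ D / 8 / (1 / 2 - κ) + t / (4 * κ) / (1 / 2 - κ) := by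
    rw [← add_div, le_div_iff₀ hk]
    linarith [div_le_div_of_nonneg_right hRt (show 0 ≤ 4 * κ by positivity)]
  have h2 : 4 * (1 + κ) * (D / 8 / (1 / 2 - κ)) ≤ D + 6 * κ * D := by
    rw [← mul_div_assoc, div_le_iff₀ hk]
    nlinarith [mul_nonneg (mul_nonneg hκ.le hD) (sub_nonneg.2 hκ4)]
  have h3 := mul_le_mul_of_nonneg_left h1 (show 0 ≤ 4 * (1 + κ) by positivity)
  have h4 : 4 * (1 + κ) * (t / (4 * κ) / (1 / 2 - κ)) =
      4 * (1 + κ) / (1 / 2 - κ) * (t / (4 * κ)) := by ring
  linarith

/-- Poincaré's inequality with the Lichnerowicz constant. -/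
theorem four_mul_sq_le {z : X → ℝ} (hz : S.Smooth z) (h0 : ∫ x, z x ∂S.vol = 0) :
    4 * ∫ x, z x ^ 2 ∂S.vol ≤ ∫ x, S.ip z z x ∂S.vol := by
  obtain ⟨Cp, hCp⟩ := S.poincareL1
  set D := ∫ x, S.ip z z x ∂S.vol
  set V := S.vol.real Set.univ
  have hV : 0 ≤ V := measureReal_nonneg
  have hD : 0 ≤ D := integral_nonneg (S.ip_self_nonneg z)
  have cz := S.continuous_of_smooth hz
  obtain ⟨B, hB⟩ := isCompact_univ.exists_bound_of_continuousOn cz.continuousOn
  refine le_of_forall_pos_le_add fun σ hσ => ?_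
  set κ := min (1 / 4) (σ / (16 * (D + 1))) with hκdef
  have hκ : 0 < κ := lt_min (by norm_num) (by positivity)
  have hκ4 : κ ≤ 1 / 4 := min_le_left _ _
  have hκD : 6 * κ * D ≤ σ / 2 := by
    have h := mul_le_mul_of_nonneg_right (min_le_right (1 / 4) (σ / (16 * (D + 1))))
      (show 0 ≤ 16 * (D + 1) by positivity)
    rw [div_mul_cancel₀ _ (show (16 * (D + 1)) ≠ 0 by positivity), ← hκdef] at h
    nlinarith
  set B₀ := max B 0
  have hB₀ : 0 ≤ B₀ := le_max_right _ _
  have hzB : ∀ x, |z x| ≤ B₀ := fun x => (hB x (Set.mem_univ x)).trans (le_max_left _ _)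
  -- a small `t`
  set F : ℝ → ℝ := fun t => 4 * (1 + κ) / (1 / 2 - κ) * (t / (4 * κ)) + 8 * (1 + 1 / κ) *
    ((B₀ + 1) * (|Cp| * t * (((D / 2 + 1) / 4 + V) / 2) + √t * (1 + V) / 2) + t) with hFdef
  have hlim : ∀ᶠ t : ℝ in nhdsWithin 0 (Set.Ioi 0), F t ≤ σ / 2 := by
    have hc : Continuous F := by fun_prop
    have h := hc.tendsto 0
    rw [show F 0 = 0 by simp [F]] at h
    exact ((h.mono_left nhdsWithin_le_nhds).eventually_lt_const (half_pos hσ)).mono fun _ => le_of_lt
  have hsm : ∀ᶠ t : ℝ in nhdsWithin 0 (Set.Ioi 0), t ≤ 1 ∧ t ≤ κ :=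
    nhdsWithin_le_nhds ((eventually_le_nhds (zero_lt_one' ℝ)).and (eventually_le_nhds hκ))
  obtain ⟨t, ⟨hFt, ht0⟩, ht1, htκ⟩ := ((hlim.and eventually_mem_nhdsWithin).and hsm).exists
  have ht0' : (0 : ℝ) < t := ht0
  obtain ⟨L, R, hR0, hRt, hL, hL0, U, hU, hLdef, hRdef, hband⟩ :=
    spectral_approx S hz ⟨hκ, hκ4⟩ (t := t) ⟨ht0', ht1⟩ hB₀ hzB
  have cU := S.continuous_of_smooth hU
  have cL := S.continuous_lap hU
  set u : X → ℝ := fun x => t * U x
  have cu : Continuous u := continuous_const.mul cU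
  have hu : S.Smooth u := by
    have := S.smooth_lin hU (S.smooth_const 0) t 1
    simpa [u] using this
  set r : X → ℝ := fun x => S.lap U x - (t * U x + z x) with hrdef
  have cr : Continuous r := cL.sub (cu.add cz)
  -- the residual and the mean of `t U`
  have hir : ∫ x, |r x| ∂S.vol ≤ √t * (1 + V) / 2 := by
    have i2 : Integrable (fun x => r x ^ 2) S.vol := S.integrable (cr.pow 2)
    have hs := Real.sqrt_pos.2 ht0'
    have key := integral_mono (S.integrable cr.abs)
      ((i2.const_mul (1 / (2 * √t))).fadd (integrable_const (√t / 2))) fun x => by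
        rw [show 1 / (2 * √t) * r x ^ 2 + √t / 2 = (r x ^ 2 + √t ^ 2) / (2 * √t) by field_simp,
          le_div_iff₀ (by positivity)]
        nlinarith [sq_nonneg (|r x| - √t), sq_abs (r x)]
    rw [integral_add (i2.const_mul _) (integrable_const _), integral_const_mul, integral_const,
      smul_eq_mul, hRdef] at key
    have h1 : 1 / (2 * √t) * R ≤ √t / 2 := by
      refine (mul_le_mul_of_nonneg_left hRt (by positivity)).trans_eq ?_
      rw [div_mul_eq_mul_div, one_mul]
      field_simp
      rw [Real.sq_sqrt ht0'.le]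
    linarith
  have hL' : L ≤ D / 2 + 1 := by
    have h1 : R / (4 * κ) ≤ 1 / 4 := by
      rw [div_le_iff₀ (by positivity)]
      linarith
    nlinarith [mul_nonneg (sub_nonneg.2 hκ4) hL0]
  have hu1 : ∫ x, |u x| ∂S.vol ≤
      |Cp| * t * (((D / 2 + 1) / 4 + V) / 2) + √t * (1 + V) / 2 := by
    have iu := S.integrable cu
    have iA := S.integrable (S.continuous_ip hU hU)
    have hmean : |∫ x, u x ∂S.vol| ≤ √t * (1 + V) / 2 := by
      refine le_trans ?_ hir
      have e : ∫ x, u x ∂S.vol = -∫ x, r x ∂S.vol := by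
        have h1 : ∫ x, r x ∂S.vol =
            (∫ x, S.lap U x ∂S.vol) - ((∫ x, u x ∂S.vol) + ∫ x, z x ∂S.vol) := by
          rw [← integral_add iu (S.integrable cz),
            ← integral_sub (S.integrable cL) (iu.fadd (S.integrable cz))]
        rw [h1, S.integral_lap hU, h0]
        ring
      rw [e, abs_neg]
      exact abs_integral_le_integral_abs
    have hsq : ∀ x, √(S.grad u x ⬝ᵥ S.grad u x) ≤ t * ((S.ip U U x + 1) / 2) := fun x => by
      have e : S.grad u x = t • S.grad U x := by
        have h := S.grad_lin hU (S.smooth_const 0) t 1 x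
        simpa [u, S.grad_const] using h
      rw [e, smul_dotProduct, dotProduct_smul, smul_eq_mul, smul_eq_mul, ← mul_assoc,
        Real.sqrt_mul (mul_self_nonneg t), Real.sqrt_mul_self ht0'.le]
      refine mul_le_mul_of_nonneg_left ?_ ht0'.le
      rw [Real.sqrt_le_left (by linarith [S.ip_self_nonneg U x])]
      simp only [ScalarGeom.ip]
      nlinarith [sq_nonneg (S.grad U x ⬝ᵥ S.grad U x - 1)]
    set av := (∫ y, u y ∂S.vol) / V with hav
    have k1 : ∫ x, |u x| ∂S.vol ≤ (∫ x, |u x - av| ∂S.vol) + |∫ x, u x ∂S.vol| := by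
      have key := integral_mono (S.integrable cu.abs) ((S.integrable (f := fun x => |u x - av|)
        (cu.sub continuous_const).abs).fadd (integrable_const |av|)) fun x => by
          linarith [abs_sub_abs_le_abs_sub (u x) av]
      rw [integral_add (S.integrable (f := fun x => |u x - av|) (cu.sub continuous_const).abs)
        (integrable_const _), integral_const, smul_eq_mul] at key
      refine key.trans (add_le_add le_rfl ?_)
      rcases hV.eq_or_lt with hV0 | hV0
      · change V * |av| ≤ _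
        rw [← hV0, zero_mul]
        exact abs_nonneg _
      · change V * |av| ≤ _
        rw [hav, abs_div, abs_of_pos hV0, mul_div_cancel₀ _ hV0.ne']
    have k2 : ∫ x, √(S.grad u x ⬝ᵥ S.grad u x) ∂S.vol ≤ t * ((L / 4 + V) / 2) := by
      have cs : Continuous fun x => √(S.grad u x ⬝ᵥ S.grad u x) := (S.continuous_ip hu hu).sqrt
      have key := integral_mono (S.integrable cs)
        (((iA.fadd (integrable_const (1 : ℝ))).div_const 2).const_mul t) hsq
      rw [integral_const_mul, integral_div, integral_add iA (integrable_const (1 : ℝ)),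
        integral_const, smul_eq_mul, mul_one] at key
      refine key.trans (mul_le_mul_of_nonneg_left ?_ ht0'.le)
      have := S.lichnerowicz hU
      rw [hLdef] at this
      linarith
    have k3 : ∫ x, |u x - av| ∂S.vol ≤ |Cp| * (t * ((L / 4 + V) / 2)) :=
      (hCp hu).trans ((mul_le_mul_of_nonneg_right (le_abs_self Cp)
        (integral_nonneg fun x => Real.sqrt_nonneg _)).trans
        (mul_le_mul_of_nonneg_left k2 (abs_nonneg Cp)))
    have k4 : |Cp| * (t * ((L / 4 + V) / 2)) ≤ |Cp| * t * (((D / 2 + 1) / 4 + V) / 2) := by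
      rw [← mul_assoc]
      exact mul_le_mul_of_nonneg_left (by linarith) (mul_nonneg (abs_nonneg _) ht0'.le)
    linarith
  have hu2 := integral_sq_le_of_bound S cu hband
  have iL2 : Integrable (fun x => S.lap U x ^ 2) S.vol := S.integrable (cL.pow 2)
  have iu2 : Integrable (fun x => u x ^ 2) S.vol := S.integrable (cu.pow 2)
  have ir2 : Integrable (fun x => r x ^ 2) S.vol := S.integrable (cr.pow 2)
  have hκi : 0 ≤ 1 + 1 / κ := by positivity
  have key := integral_mono (S.integrable (f := fun x => z x ^ 2) (cz.pow 2))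
    ((iL2.const_mul (1 + κ)).fadd ((iu2.fadd ir2).const_mul (2 * (1 + 1 / κ)))) fun x => by
      have ez : z x = S.lap U x - (u x + r x) := by simp only [u, r]; ring
      show z x ^ 2 ≤ (1 + κ) * S.lap U x ^ 2 + 2 * (1 + 1 / κ) * (u x ^ 2 + r x ^ 2)
      rw [ez]
      set a := S.lap U x
      set b := u x + r x with hb
      have h1 : (a - b) ^ 2 ≤ (1 + κ) * a ^ 2 + (1 + 1 / κ) * b ^ 2 := by
        rw [show (1 + κ) * a ^ 2 + (1 + 1 / κ) * b ^ 2 = (a - b) ^ 2 + (κ * a + b) ^ 2 / κ by
          field_simp; ring]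
        have : 0 ≤ (κ * a + b) ^ 2 / κ := by positivity
        linarith
      have h2 : b ^ 2 ≤ 2 * (u x ^ 2 + r x ^ 2) := by
        rw [hb]; nlinarith [sq_nonneg (u x - r x)]
      linarith [mul_le_mul_of_nonneg_left h2 hκi]
  rw [integral_add (iL2.const_mul _) ((iu2.fadd ir2).const_mul _), integral_const_mul,
    integral_const_mul, integral_add iu2 ir2, hLdef, hRdef] at key
  have h6 := spectral_arith hκ hκ4 hD hL hRt
  have h7 : ∫ x, u x ^ 2 ∂S.vol ≤
      (B₀ + 1) * (|Cp| * t * (((D / 2 + 1) / 4 + V) / 2) + √t * (1 + V) / 2) :=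
    hu2.trans (mul_le_mul_of_nonneg_left hu1 (by linarith))
  have h8 := mul_le_mul_of_nonneg_left (add_le_add h7 hRt)
    (show 0 ≤ 8 * (1 + 1 / κ) by positivity)
  simp only [hFdef] at hFt
  linarith

end

end Vale.Agent.P211.Analytic
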