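import Mathlib
import Vale.Agent.P211.Analytic.EndGame.Barrier
import Vale.Agent.P211.Analytic.EndGame.Lift
import Vale.Agent.P211.Analytic.EndGame.Spectral
import Vale.Agent.P211.Analytic.Passage.Point

/-!
P211, module G (note 1326): the scalar dichotomy, given the passage form of the certificate, whose
weight may vanish where one variable is at most `3/5` or where the two are equal.

The part of one unknown above `3/5` and the part of the other above `3/5` where the first is small
have disjoint supports, and along the run their Rayleigh quotients are at most `3.99`.  Poincaré's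
inequality with constant four leaves only one of them; so where one unknown exceeds one the other
would have to be small, which is then excluded.
-/

open MeasureTheory Filter Topology Matrix
open scoped ContDiff

namespace Vale.Agent.P211.Analytic

noncomputable section

variable {X : Type*} [TopologicalSpace X] [MeasurableSpace X] [CompactSpace X] [BorelSpace X]
  {S : ScalarGeom X} {x y : X → ℝ} {G : ℝ → ℝ → ℝ}

/-- Where the weight may vanish inside the level. -/
def ZerosIn (G : ℝ → ℝ → ℝ) : Prop :=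
  ∀ s t, 0 ≤ s → 0 ≤ t → qC s + qC t ≤ 2 → G s t = 0 → s ≤ 3 / 5 ∨ t ≤ 3 / 5 ∨ s = t

omit [TopologicalSpace X] [MeasurableSpace X] [CompactSpace X] [BorelSpace X] in
lemma defectOf_eq_zero (hG0 : ∀ s t, 0 ≤ s → 0 ≤ t → qC s + qC t ≤ 2 → 0 ≤ G s t)
    (hGz : ZerosIn G) {z : ℝ × ℝ} (h : defectOf G z = 0) :
    0 ≤ z.1 ∧ 0 ≤ z.2 ∧ qC z.1 + qC z.2 ≤ 2 ∧ z.1 ≤ 127 / 100 ∧ z.2 ≤ 127 / 100 ∧
      (z.1 ≤ 3 / 5 ∨ z.2 ≤ 3 / 5 ∨ z.1 = z.2) := by
  unfold defectOf at h
  have a0 := le_max_right (G z.1 z.2) 0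
  have a1 := le_max_right (-z.1) 0
  have a2 := le_max_right (-z.2) 0
  have a3 := le_max_right (qC z.1 + qC z.2 - 2) 0
  have b1 : 0 ≤ z.1 := by linarith [le_max_left (-z.1) 0]
  have b2 : 0 ≤ z.2 := by linarith [le_max_left (-z.2) 0]
  have b3 : qC z.1 + qC z.2 ≤ 2 := by linarith [le_max_left (qC z.1 + qC z.2 - 2) 0]
  have b0 : G z.1 z.2 = 0 :=
    le_antisymm (by linarith [le_max_left (G z.1 z.2) 0]) (hG0 _ _ b1 b2 b3)
  exact ⟨b1, b2, b3, le_of_qC_le (by linarith [qC_nonneg z.2]),
    le_of_qC_le (by linarith [qC_nonneg z.1]), hGz _ _ b1 b2 b3 b0⟩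

omit [CompactSpace X] [BorelSpace X] in
lemma Barriers.symm (h : Barriers S x y) : Barriers S y x := fun e he η hη => by
  obtain ⟨l₁, l₂, s₁, s₂, hb, r₁, r₂, hr, hc⟩ := h e he η hη
  exact ⟨l₂, l₁, s₂, s₁, fun z => ⟨(hb z).2, (hb z).1⟩, r₂, r₁,
    fun z => by linarith [hr z], fun z => ⟨(hc z).2, (hc z).1⟩⟩

/-- A limit of barriers with values in the unit interval is zero or one. -/
lemma Barriers.eq_zero_or_one [PreconnectedSpace X] (h : Barriers S x y) (cx : Continuous x)
    (hx : ∀ z, 0 ≤ x z) (h1 : ∀ z, x z ≤ 1) : (∀ z, x z = 0) ∨ ∀ z, x z = 1 := by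
  set p : X → ℝ := fun z => x z ^ (1 / 3 : ℝ)
  have cp : Continuous p := cx.rpow_const fun _ => Or.inr (by norm_num)
  have hp0 : ∀ z, 0 ≤ p z := fun z => Real.rpow_nonneg (hx z) _
  have hp3 : ∀ z, p z ^ 3 = x z := fun z => by
    simp only [p]
    rw [← Real.rpow_natCast (x z ^ (1 / 3 : ℝ)), ← Real.rpow_mul (hx z)]
    norm_num
  have hp1 : ∀ z, p z ≤ 1 := fun z => by
    refine le_of_pow_le_pow_left₀ three_ne_zero zero_le_one ?_
    rw [hp3, one_pow]; exact h1 z
  set V := S.vol.real Set.univ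
  have hV : 0 ≤ V := measureReal_nonneg
  have cr : Continuous fun z => react (p z) := by unfold react; fun_prop
  have hr0 : ∀ z, 0 ≤ react (p z) := fun z => by
    have := pow_le_one₀ (n := 3) (hp0 z) (hp1 z)
    exact mul_nonneg (by linarith [hp0 z]) (by linarith)
  have hint : ∫ z, react (p z) ∂S.vol ≤ 0 := by
    refine le_of_forall_pos_le_add fun σ hσ => ?_
    set t := min 1 (σ / (81 * (V + 1))) with htdef
    have ht : 0 < t := lt_min one_pos (by positivity)
    obtain ⟨l, l', hl, -, hb, hs, -, -, hn⟩ := h t ht (t ^ 3) (pow_pos ht 3)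
    have cl : Continuous fun z => react (l z) := by
      have := S.continuous_of_smooth hl
      unfold react; fun_prop
    have key := integral_mono ((S.integrable cr).sub' (integrable_const (81 * t)))
      (S.integrable (S.continuous_lap hl)) fun z => by
        obtain ⟨l0, l2⟩ := (hb z).1
        have hd : |l z - p z| ≤ t :=
          abs_sub_le_of_cube l0 (hp0 z) ht.le (by rw [hp3]; exact (hn z).1)
        obtain ⟨d1, d2⟩ := abs_le.1 hd
        have h4 : l z ^ 4 - p z ^ 4 ≤ 32 * t := by
          have hs2 : (l z + p z) * (l z ^ 2 + p z ^ 2) ≤ 32 := by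
            have a1 : l z + p z ≤ 4 := by linarith [hp1 z]
            have a2 : l z ^ 2 + p z ^ 2 ≤ 8 := by nlinarith [hp1 z, hp0 z]
            exact (mul_le_mul a1 a2 (by positivity) (by norm_num)).trans_eq (by norm_num)
          rw [show l z ^ 4 - p z ^ 4 =
            (l z - p z) * ((l z + p z) * (l z ^ 2 + p z ^ 2)) by ring]
          exact (mul_le_mul_of_nonneg_right d2
            (mul_nonneg (by linarith [hp0 z]) (by positivity))).trans
            ((mul_le_mul_of_nonneg_left hs2 ht.le).trans_eq (by ring))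
        have := hs z
        simp only [react] at this ⊢
        linarith
    rw [integral_sub (S.integrable cr) (integrable_const _), integral_const, smul_eq_mul,
      S.integral_lap hl] at key
    have h5 : t * (81 * (V + 1)) ≤ σ :=
      (le_div_iff₀ (by positivity)).1 (min_le_right _ _)
    linarith
  have hval : ∀ z, x z = 0 ∨ x z = 1 := fun z => by
    have h0 := eq_zero_of_integral S cr hr0 hint z
    rcases mul_eq_zero.1 h0 with h' | h'
    · exact Or.inl (by rw [← hp3, show p z = 0 by linarith]; norm_num)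
    · exact Or.inr (by rw [← hp3]; linarith)
  by_contra hc
  rw [not_or, not_forall, not_forall] at hc
  obtain ⟨⟨a, ha⟩, ⟨b, hb⟩⟩ := hc
  have hxa : x a = 1 := (hval a).resolve_left ha
  have hxb : x b = 0 := (hval b).resolve_right hb
  obtain ⟨w, hw⟩ := intermediate_value_univ b a cx (show (1 / 2 : ℝ) ∈ Set.Icc (x b) (x a) by
    rw [hxa, hxb]; constructor <;> norm_num)
  rcases hval w with h | h <;> linarith

namespace Run

variable (R : Run S x y G)

omit [CompactSpace X] [BorelSpace X] in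
lemma near₁ (hx : ∀ z, 0 ≤ x z) : ∀ σ > 0, ∀ᶠ n in atTop, ∀ z,
    |(R.A n).l₁ z - x z ^ (1 / 3 : ℝ)| ≤ σ := fun σ hσ =>
  (R.limit₁ (σ ^ 3) (pow_pos hσ 3)).mono fun n hn z => by
    refine abs_sub_le_of_cube ((R.A n).band_l z).1.1 (Real.rpow_nonneg (hx z) _) hσ.le ?_
    rw [← Real.rpow_natCast (x z ^ (1 / 3 : ℝ)), ← Real.rpow_mul (hx z)]
    norm_num
    exact hn z

omit [CompactSpace X] [BorelSpace X] in
lemma near₂ (hy : ∀ z, 0 ≤ y z) : ∀ σ > 0, ∀ᶠ n in atTop, ∀ z,
    |(R.A n).l₂ z - y z ^ (1 / 3 : ℝ)| ≤ σ := fun σ hσ =>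
  (R.limit₂ (σ ^ 3) (pow_pos hσ 3)).mono fun n hn z => by
    refine abs_sub_le_of_cube ((R.A n).band_l z).2.1 (Real.rpow_nonneg (hy z) _) hσ.le ?_
    rw [← Real.rpow_natCast (y z ^ (1 / 3 : ℝ)), ← Real.rpow_mul (hy z)]
    norm_num
    exact hn z

/-- The run with the two unknowns exchanged. -/
def swap (R : Run S x y G) : Run S y x fun s t => G t s where
  A n := (R.A n).symm
  accuracy := R.accuracy
  below₁ := R.below₂
  below₂ := R.below₁
  low₁ := R.low₂
  low₂ := R.low₁
  lapErr := by
    refine R.lapErr.congr fun n => integral_congr_ae (.of_forall fun x => ?_)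
    simp only [Approx.lapErr, Approx.phi_symm]
    show _ = (7 * _ + ((R.A n).symm.excess x + (R.A n).excess x + |(R.A n).symm.res x| +
      |(R.A n).res x|)) ^ 2
    ring
  above := by simpa only [Approx.symm, add_comm (qC ((R.A _).g _))] using R.above
  gate := R.gate
  limit₁ := R.limit₂
  limit₂ := R.limit₁

/-- The energy of a piece of the first unknown above `3/5`. -/
lemma piece_energy (hG : Continuous fun z : ℝ × ℝ => G z.1 z.2)
    (hG0 : ∀ s t, 0 ≤ s → 0 ≤ t → qC s + qC t ≤ 2 → 0 ≤ G s t) (hGz : ZerosIn G)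
    {χ : ℝ → ℝ} (hχ : ContDiff ℝ ∞ χ) (h01 : ∀ s, 0 ≤ χ s ∧ χ s ≤ 1)
    (hflat : ∀ z, defectOf G z = 0 → top35 z.1 ≠ 0 → deriv χ z.2 = 0 ∧ (χ z.2 = 0 ∨ χ z.2 = 1))
    {σ : ℝ} (hσ : 0 < σ) :
    ∀ᶠ n in atTop,
      ∫ x, S.ip (fun w => top35 ((R.A n).f w) * χ ((R.A n).g w))
          (fun w => top35 ((R.A n).f w) * χ ((R.A n).g w)) x ∂S.vol ≤
        399 / 100 * (∫ x, (top35 ((R.A n).f x) * χ ((R.A n).g x)) ^ 2 ∂S.vol) + σ := by
  obtain ⟨hT, hT', -, hTb⟩ := top35_spec
  have cT' : Continuous (deriv top35) := hT.continuous_deriv (by simp)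
  have cχ' : Continuous (deriv χ) := hχ.continuous_deriv (by simp)
  have cT := hT.continuous
  have cχ := hχ.continuous
  set b : ℝ × ℝ → ℝ := fun z => top35 z.1 * deriv χ z.2
  have cb : Continuous b := by fun_prop
  set ψ₁ : ℝ × ℝ → ℝ := fun z => |b z| + b z ^ 2
  have cψ₁ : Continuous ψ₁ := by fun_prop
  set U : ℝ × ℝ → ℝ := fun z => top35 z.1 * χ z.2
  have cU : Continuous U := by fun_prop
  set ψ₂ : ℝ × ℝ → ℝ := fun z =>
    max (-(U z * (react z.1 - soft z.1 z.2)) - 399 / 100 * U z ^ 2) 0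
  have cψ₂ : Continuous ψ₂ := by
    have := continuous_soft
    unfold ψ₂ react; fun_prop
  have hD := R.defect_null hG hG0
  have cD : Continuous (defectOf G) := Run.continuous_defectOf hG
  have n1 := R.grad_null cψ₁ (fun z _ => by positivity)
    (R.null_of_null cψ₁ cD (fun z _ => by positivity) (fun z _ => defectOf_nonneg G z)
      (fun z _ h => by
        have hb : b z = 0 := by
          by_cases h0 : top35 z.1 = 0
          · simp [b, h0]
          · simp [b, (hflat z h h0).1]
        simp [ψ₁, hb]) hD)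
  have n2 := R.null_of_null cψ₂ cD (fun z _ => le_max_right _ _) (fun z _ => defectOf_nonneg G z)
    (fun z _ h => by
      refine max_le ?_ le_rfl
      obtain ⟨a0, -, -, a1, -⟩ := defectOf_eq_zero hG0 hGz h
      by_cases h0 : top35 z.1 = 0
      · simp [U, h0]
      rcases (hflat z h h0).2 with h1 | h1
      · simp [U, h1]
      · have := top35_margin a0 a1 z.2
        simp only [U, h1, mul_one, react]
        linarith) hD
  filter_upwards [n1.eventually_lt_const (show (0 : ℝ) < σ / 4 by linarith),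
    n2.eventually_lt_const (show (0 : ℝ) < σ / 4 by linarith),
    R.low₁.eventually_lt_const (show (0 : ℝ) < σ / 4 by linarith)] with n h1 h2 h3
  set A := R.A n
  have hu := S.smooth_comp₁ A.smooth_f hT
  have hv := S.smooth_comp₁ A.smooth_g hχ
  have hP : S.Smooth fun w => top35 (A.f w) * χ (A.g w) := S.smooth_mul hu hv
  have cP := S.continuous_of_smooth hP
  have iL : Integrable (fun x => -(top35 (A.f x) * χ (A.g x) * S.lap A.f x)) S.vol :=
    S.integrable (cP.mul (S.continuous_lap A.smooth_f)).neg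
  have i1 : Integrable (fun x => ψ₁ (A.f x, A.g x) * A.energyDensity x) S.vol :=
    S.integrable ((R.continuous_pair _ cψ₁ n).mul A.continuous_energyDensity)
  have i2 : Integrable (fun x => ψ₂ (A.f x, A.g x)) S.vol := S.integrable (R.continuous_pair _ cψ₂ n)
  have i3 : Integrable A.lapLow S.vol := by
    refine S.integrable ?_
    have := A.continuous_below
    have := A.continuous_excess
    have := A.continuous_res
    unfold Approx.lapLow
    fun_prop
  have iS : Integrable (fun x => (top35 (A.f x) * χ (A.g x)) ^ 2) S.vol := S.integrable (cP.pow 2)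
  -- the exact identity
  have hid : ∫ x, S.ip (fun w => top35 (A.f w) * χ (A.g w)) A.f x ∂S.vol =
      ∫ x, -(top35 (A.f x) * χ (A.g x) * S.lap A.f x) ∂S.vol := by
    rw [integral_neg, S.integral_mul_lap A.smooth_f hP, neg_neg]
  have k1 := integral_mono (S.integrable (S.continuous_ip hP hP))
    ((S.integrable (S.continuous_ip hP A.smooth_f)).fadd i1) fun x => by
      obtain ⟨t0, t1⟩ := hT' (A.f x)
      obtain ⟨c0, c1⟩ := h01 (A.g x)
      set a := χ (A.g x) * deriv top35 (A.f x)
      set v := b (A.f x, A.g x)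
      have ha0 : 0 ≤ a := mul_nonneg c0 t0
      have ha1 : a ≤ 1 := mul_le_one₀ c1 t0 t1
      have eg : S.grad (fun w => top35 (A.f w) * χ (A.g w)) x =
          a • S.grad A.f x + v • S.grad A.g x := by
        rw [S.grad_mul hu hv, S.grad_comp₁ A.smooth_f hT, S.grad_comp₁ A.smooth_g hχ, smul_smul,
          smul_smul]
      have hF := S.ip_self_nonneg A.f x
      have hE := S.ip_self_nonneg A.g x
      have hX := abs_dot_le (S.grad A.f x) (S.grad A.g x)
      simp only [ScalarGeom.ip] at hF hE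
      simp only [ψ₁, ScalarGeom.ip, Approx.energyDensity, eg, add_dotProduct, dotProduct_add,
        smul_dotProduct, dotProduct_smul, smul_eq_mul, dotProduct_comm (S.grad A.g x) (S.grad A.f x)]
      set F := S.grad A.f x ⬝ᵥ S.grad A.f x
      set E := S.grad A.g x ⬝ᵥ S.grad A.g x
      set X' := S.grad A.f x ⬝ᵥ S.grad A.g x
      have h4 : (2 * a - 1) * (v * X') ≤ |v| * ((F + E) / 2) := by
        refine (le_abs_self _).trans ?_
        rw [abs_mul, abs_mul]
        exact (mul_le_of_le_one_left (by positivity) (abs_le.2 ⟨by linarith, by linarith⟩)).trans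
          (mul_le_mul_of_nonneg_left hX (abs_nonneg _))
      have h5 := mul_nonneg (mul_nonneg ha0 (sub_nonneg.2 ha1)) hF
      have h6 := mul_nonneg (sq_nonneg v) hF
      have h7 := mul_nonneg (abs_nonneg v) (add_nonneg hF hE)
      linarith
  rw [integral_add (S.integrable (S.continuous_ip hP A.smooth_f)) i1, hid] at k1
  have k2 := integral_mono iL (((iS.const_mul (399 / 100)).fadd i2).fadd (i3.const_mul 2)) fun x => by
    obtain ⟨p, hp0, -, -, -, hp⟩ := A.lap_split x
    obtain ⟨t0, -, t2⟩ := hTb (A.f x)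
    obtain ⟨c0, c1⟩ := h01 (A.g x)
    have hU0 : 0 ≤ U (A.f x, A.g x) := mul_nonneg t0 c0
    have hU2 : U (A.f x, A.g x) ≤ 2 :=
      (mul_le_of_le_one_right t0 c1).trans (t2 (le_of_abs_le (A.abs_f_le x)))
    have h4 : react (A.f x) - soft (A.f x) (A.g x) - A.lapLow x ≤ S.lap A.f x := by
      unfold Approx.lapLow
      linarith [(abs_le.1 hp).1]
    have h5 := mul_le_mul_of_nonneg_left h4 hU0
    have hlow : 0 ≤ A.lapLow x := by
      have := A.hε.1
      have := (A.below_bounds x).1
      have : 0 ≤ A.excess x := le_max_right _ _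
      unfold Approx.lapLow
      positivity
    have h6 := mul_le_mul_of_nonneg_right hU2 hlow
    have h7 : -(U (A.f x, A.g x) * (react (A.f x) - soft (A.f x) (A.g x))) -
        399 / 100 * U (A.f x, A.g x) ^ 2 ≤
        ψ₂ (A.f x, A.g x) := le_max_left _ _
    simp only [U] at h5 h6 h7
    linarith
  rw [integral_add ((iS.const_mul _).fadd i2) (i3.const_mul _), integral_add (iS.const_mul _) i2,
    integral_const_mul, integral_const_mul] at k2
  unfold avg at h2
  linarith

/-- The two disjoint parts cannot both keep mass. -/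
lemma mass_prod_null (hG : Continuous fun z : ℝ × ℝ => G z.1 z.2)
    (hG0 : ∀ s t, 0 ≤ s → 0 ≤ t → qC s + qC t ≤ 2 → 0 ≤ G s t) (hGz : ZerosIn G) :
    Tendsto (fun n => R.avg (fun z => top35 z.1) n * R.avg (fun z => top35 z.2 * switch35 z.1) n)
      atTop (𝓝 0) := by
  obtain ⟨hT, -, hTz, hTb⟩ := top35_spec
  obtain ⟨hs01, hsl, hsr⟩ := switch35_spec
  have hG0' : ∀ s t, 0 ≤ s → 0 ≤ t → qC s + qC t ≤ 2 → 0 ≤ G t s := fun s t hs ht h =>
    hG0 t s ht hs (by linarith)
  have hGz' : ZerosIn fun s t => G t s := fun s t hs ht h e => by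
    rcases hGz t s ht hs (by linarith) e with h | h | h
    exacts [Or.inr (Or.inl h), Or.inl h, Or.inr (Or.inr h.symm)]
  have hflat : ∀ z, defectOf (fun s t => G t s) z = 0 → top35 z.1 ≠ 0 →
      deriv switch35 z.2 = 0 ∧ (switch35 z.2 = 0 ∨ switch35 z.2 = 1) := fun z h h0 => by
    have h1 : (601 / 1000 : ℝ) < z.1 := by
      by_contra hc
      exact h0 (hTz _ (not_lt.1 hc)).1
    rcases (defectOf_eq_zero hG0' hGz' h).2.2.2.2.2 with h' | h' | h'
    · linarith
    · exact ⟨(hsl _ h').2, Or.inr (hsl _ h').1⟩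
    · exact ⟨(hsr _ (by linarith)).2, Or.inl (hsr _ (by linarith)).1⟩
  have hG' : Continuous fun z : ℝ × ℝ => G z.2 z.1 := hG.comp continuous_swap
  set V := S.vol.real Set.univ
  have hV : 0 ≤ V := measureReal_nonneg
  set a := R.avg (fun z => top35 z.1)
  set b := R.avg (fun z => top35 z.2 * switch35 z.1)
  have h0 : ∀ n, 0 ≤ a n * b n := fun n =>
    mul_nonneg (integral_nonneg fun w => (hTb _).1)
      (integral_nonneg fun w => mul_nonneg (hTb _).1 (hs01 _).1)
  refine tendsto_order.2 ⟨fun r hr => .of_forall fun n => hr.trans_le (h0 n), fun r hr => ?_⟩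
  set σ := r ^ 2 / (801 * (V + 1) ^ 3) with hσdef
  have hσ : 0 < σ := by positivity
  filter_upwards [R.piece_energy hG hG0 hGz (χ := fun _ => 1) contDiff_const
      (fun _ => ⟨zero_le_one, le_rfl⟩) (fun z _ _ => ⟨by simp, Or.inr rfl⟩) hσ,
    R.swap.piece_energy hG' hG0' hGz' contDiff_switch35 hs01 hflat hσ] with n hA hB
  set A := R.A n
  simp only [mul_one, show (R.swap.A n).f = A.g from rfl, show (R.swap.A n).g = A.f from rfl] at hA hB
  have hu := S.smooth_comp₁ A.smooth_f hT
  have hv1 := S.smooth_comp₁ A.smooth_g hT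
  have hv2 := S.smooth_comp₁ A.smooth_f contDiff_switch35
  have hv : S.Smooth fun w => top35 (A.g w) * switch35 (A.f w) := S.smooth_mul hv1 hv2
  set u : X → ℝ := fun w => top35 (A.f w)
  set v : X → ℝ := fun w => top35 (A.g w) * switch35 (A.f w)
  have cu : Continuous u := S.continuous_of_smooth hu
  have cv : Continuous v := S.continuous_of_smooth hv
  have ea : a n = ∫ w, u w ∂S.vol := rfl
  have eb : b n = ∫ w, v w ∂S.vol := rfl
  have hu0 : ∀ w, 0 ≤ u w ∧ u w ≤ 2 := fun w =>
    ⟨(hTb _).1, (hTb _).2.2 (le_of_abs_le (A.abs_f_le w))⟩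
  have hv0 : ∀ w, 0 ≤ v w ∧ v w ≤ 2 := fun w =>
    ⟨mul_nonneg (hTb _).1 (hs01 _).1, (mul_le_of_le_one_right (hTb _).1 (hs01 _).2).trans
      ((hTb _).2.2 (le_of_abs_le (A.abs_g_le w)))⟩
  have flat : ∀ w, u w * v w = 0 ∧
      S.grad u w ⬝ᵥ S.grad v w = 0 := fun w => by
    rcases le_or_gt (A.f w) (601 / 1000) with h | h
    · refine ⟨by simp [u, (hTz _ h).1], ?_⟩
      simp [u, S.grad_comp₁ A.smooth_f hT, (hTz _ h).2]
    · obtain ⟨e1, e2⟩ := hsr _ h.le
      refine ⟨by simp [v, e1], ?_⟩
      simp [v, S.grad_mul hv1 hv2, S.grad_comp₁ A.smooth_f contDiff_switch35, e1, e2]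
  set z : X → ℝ := fun w => b n * u w + -a n * v w
  have hz : S.Smooth z := S.smooth_lin hu hv (b n) (-a n)
  have iu := S.integrable cu
  have iv := S.integrable cv
  have z0 : ∫ w, z w ∂S.vol = 0 := by
    rw [integral_add (iu.const_mul _) (iv.const_mul _), integral_const_mul, integral_const_mul,
      ← ea, ← eb]
    ring
  have iuu : Integrable (fun w => u w ^ 2) S.vol := S.integrable (cu.pow 2)
  have ivv : Integrable (fun w => v w ^ 2) S.vol := S.integrable (cv.pow 2)
  have e1 : ∫ w, z w ^ 2 ∂S.vol =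
      b n ^ 2 * (∫ w, u w ^ 2 ∂S.vol) + a n ^ 2 * ∫ w, v w ^ 2 ∂S.vol := by
    rw [← integral_const_mul, ← integral_const_mul, ← integral_add (iuu.const_mul _) (ivv.const_mul _)]
    refine integral_congr_ae (.of_forall fun w => ?_)
    simp only [z]
    linear_combination (-2 * a n * b n) * (flat w).1
  have e2 : ∫ w, S.ip z z w ∂S.vol =
      b n ^ 2 * (∫ w, S.ip u u w ∂S.vol) + a n ^ 2 * ∫ w, S.ip v v w ∂S.vol := by
    rw [← integral_const_mul, ← integral_const_mul,
      ← integral_add ((S.integrable (S.continuous_ip hu hu)).const_mul _)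
        ((S.integrable (S.continuous_ip hv hv)).const_mul _)]
    refine integral_congr_ae (.of_forall fun w => ?_)
    simp only [z, ScalarGeom.ip, S.grad_lin hu hv, add_dotProduct, dotProduct_add,
      smul_dotProduct, dotProduct_smul, smul_eq_mul, dotProduct_comm (S.grad v w) (S.grad u w),
      (flat w).2]
    ring
  have h4 := four_mul_sq_le S hz z0
  rw [e1, e2] at h4
  have m1 := mul_le_mul_of_nonneg_left hA (sq_nonneg (b n))
  have m2 := mul_le_mul_of_nonneg_left hB (sq_nonneg (a n))
  have a2 : ∀ {w : X → ℝ}, Continuous w → (∀ p, 0 ≤ w p ∧ w p ≤ 2) →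
      0 ≤ ∫ p, w p ∂S.vol ∧ ∫ p, w p ∂S.vol ≤ 2 * V := fun {w} cw h =>
    ⟨integral_nonneg fun p => (h p).1,
      (integral_mono (S.integrable cw) (integrable_const 2) fun p => (h p).2).trans_eq (by
        rw [integral_const, smul_eq_mul, mul_comm])⟩
  obtain ⟨a0, a1⟩ := a2 cu hu0
  obtain ⟨b0, b1⟩ := a2 cv hv0
  rw [← ea] at a0 a1
  rw [← eb] at b0 b1
  have cs : a n ^ 2 ≤ V * ∫ w, u w ^ 2 ∂S.vol := by
    rcases hV.eq_or_lt with h | h
    · have : a n = 0 := by linarith [show 2 * V = 0 by rw [← h]; ring]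
      rw [this, ← h]; simp
    · have key := integral_mono (iu.const_mul (2 * (a n / V)))
        ((integrable_const ((a n / V) ^ 2)).fadd iuu) fun w => by
          nlinarith [sq_nonneg (u w - a n / V)]
      rw [integral_const_mul, integral_add (integrable_const _) iuu, integral_const, smul_eq_mul,
        ← ea] at key
      have k2 := mul_le_mul_of_nonneg_left key h.le
      have q1 : V * (2 * (a n / V) * a n) = 2 * a n ^ 2 := by field_simp
      have q2 : V * (V * (a n / V) ^ 2) = a n ^ 2 := by field_simp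
      change V * (2 * (a n / V) * a n) ≤ V * (V * (a n / V) ^ 2 + _) at k2
      rw [q1, mul_add, q2] at k2
      linarith
  have hsq : (a n * b n) ^ 2 ≤ V * (100 * (8 * V ^ 2 * σ)) := by
    have t1 := mul_le_mul_of_nonneg_left cs (sq_nonneg (b n))
    have t2 : 0 ≤ a n ^ 2 * ∫ w, v w ^ 2 ∂S.vol :=
      mul_nonneg (sq_nonneg _) (integral_nonneg fun w => sq_nonneg _)
    have t3 : (a n ^ 2 + b n ^ 2) * σ ≤ 8 * V ^ 2 * σ :=
      mul_le_mul_of_nonneg_right (by nlinarith) hσ.le
    have t4 : b n ^ 2 * ∫ w, u w ^ 2 ∂S.vol ≤ 100 * (8 * V ^ 2 * σ) := by linarith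
    have t5 := mul_le_mul_of_nonneg_left t4 hV
    rw [mul_pow]
    linarith
  have hlt : V * (100 * (8 * V ^ 2 * σ)) < r ^ 2 := by
    have e : σ * (801 * (V + 1) ^ 3) = r ^ 2 := by
      rw [hσdef, div_mul_cancel₀ _ (by positivity)]
    have := pow_le_pow_left₀ hV (show V ≤ V + 1 by linarith) 3
    nlinarith [pow_pos (show 0 < V + 1 by linarith) 3]
  exact lt_of_pow_lt_pow_left₀ 2 hr.le (hsq.trans_lt hlt)

/-- Where the first limit exceeds `0.602³` the part of the first unknown above `3/5` keeps mass. -/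
lemma mass_pos {p : X → ℝ} (cp : Continuous p)
    (hp : ∀ σ > 0, ∀ᶠ n in atTop, ∀ z, |(R.A n).l₁ z - p z| ≤ σ)
    (hne : ∃ z, 602 / 1000 < p z) :
    ∃ a₀ > 0, ∀ᶠ n in atTop, a₀ ≤ R.avg (fun z => top35 z.1) n := by
  obtain ⟨hT, -, -, hTb⟩ := top35_spec
  set r : X → ℝ := fun z => max (p z - 602 / 1000) 0
  have cr : Continuous r := (cp.sub continuous_const).max continuous_const
  have hI : 0 < ∫ z, r z ∂S.vol := by
    by_contra hc
    obtain ⟨z, hz⟩ := hne
    have := eq_zero_of_integral S cr (fun _ => le_max_right _ _) (not_lt.1 hc) z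
    simp only [r] at this
    linarith [le_max_left (p z - 602 / 1000) 0]
  set V := S.vol.real Set.univ
  have hV : 0 ≤ V := measureReal_nonneg
  set I := ∫ z, r z ∂S.vol
  refine ⟨I / 2, half_pos hI, ?_⟩
  filter_upwards [hp (I / (4 * (V + 1))) (by positivity),
    R.below₁.eventually_lt_const (show (0 : ℝ) < I / 4 by linarith)] with n hn hb
  set A := R.A n
  have cu : Continuous fun z => top35 (A.f z) := hT.continuous.comp A.continuous_f
  have i1 := S.integrable cu
  have i2 := S.integrable A.continuous_below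
  have key := integral_mono (S.integrable cr)
    ((i1.fadd i2).fadd (integrable_const (I / (4 * (V + 1))))) fun z => by
      have h1 : A.l₁ z - A.f z ≤ A.below z := le_max_left _ _
      have h2 := (A.below_bounds z).1
      have h3 : 0 ≤ I / (4 * (V + 1)) := by positivity
      have h4 := (le_max_left _ _).trans (hTb (A.f z)).2.1
      refine max_le ?_ (by linarith [(hTb (A.f z)).1])
      linarith [(abs_le.1 (hn z)).1]
  rw [integral_add (i1.fadd i2) (integrable_const _), integral_add i1 i2, integral_const,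
    smul_eq_mul] at key
  have h2 : V * (I / (4 * (V + 1))) ≤ I / 4 := by
    rw [mul_div_assoc', div_le_iff₀ (by positivity)]
    nlinarith
  show I / 2 ≤ ∫ z, top35 (A.f z) ∂S.vol
  linarith

/-- If the first unknown is at most one in mean, so is the first limit. -/
lemma le_one (cx : Continuous x)
    (h : Tendsto (fun n => ∫ z, max ((R.A n).f z - 1) 0 ∂S.vol) atTop (𝓝 0)) : ∀ z, x z ≤ 1 := by
  have ct : Continuous fun z => max (x z - 1) 0 := (cx.sub continuous_const).max continuous_const
  have hi : ∫ z, max (x z - 1) 0 ∂S.vol ≤ 0 := by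
    refine le_of_forall_pos_le_add fun σ hσ => ?_
    set V := S.vol.real Set.univ
    have hV : 0 ≤ V := measureReal_nonneg
    obtain ⟨n, hn, hn'⟩ := ((R.limit₁ (σ / (2 * (V + 1))) (by positivity)).and
      (((R.below₁.add h).const_mul 7).eventually_lt_const
        (show 7 * ((0 : ℝ) + 0) < σ / 2 by linarith))).exists
    set A := R.A n
    have i1 : Integrable A.below S.vol := S.integrable A.continuous_below
    have i2 : Integrable (fun z => max (A.f z - 1) 0) S.vol :=
      S.integrable ((A.continuous_f.sub continuous_const).max continuous_const)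
    have key := integral_mono (S.integrable ct)
      ((integrable_const (σ / (2 * (V + 1)))).fadd ((i1.fadd i2).const_mul 7)) fun z => by
        obtain ⟨h0, h2⟩ := (A.band_l z).1
        have hb := A.below_bounds z
        have hm : A.l₁ z - A.f z ≤ A.below z := le_max_left _ _
        have hp : 0 ≤ σ / (2 * (V + 1)) := by positivity
        have hf := le_max_left (A.f z - 1) 0
        have hf0 := le_max_right (A.f z - 1) 0
        refine max_le ?_ (by linarith)
        have hx := abs_le.1 (hn z)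
        rcases le_total (A.l₁ z) 1 with hl | hl
        · linarith [pow_le_one₀ (n := 3) h0 hl]
        · nlinarith [mul_le_mul h2 h2 h0 zero_le_two]
    rw [integral_add (integrable_const _) ((i1.fadd i2).const_mul 7), integral_const,
      integral_const_mul, integral_add i1 i2, smul_eq_mul] at key
    have h2 : V * (σ / (2 * (V + 1))) ≤ σ / 2 := by
      rw [mul_div_assoc', div_le_iff₀ (by positivity)]
      nlinarith
    linarith
  intro z
  have := eq_zero_of_integral S ct (fun z => le_max_right _ _) hi z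
  linarith [le_max_left (x z - 1) 0]

/-- If the second limit exceeds `0.602³` somewhere, the first is at most one. -/
lemma le_one_of_other (R : Run S x y G) (hG : Continuous fun z : ℝ × ℝ => G z.1 z.2)
    (hG0 : ∀ s t, 0 ≤ s → 0 ≤ t → qC s + qC t ≤ 2 → 0 ≤ G s t) (hGz : ZerosIn G)
    (cx : Continuous x) (cy : Continuous y) (hy : ∀ z, 0 ≤ y z)
    (hne : ∃ z, 602 / 1000 < y z ^ (1 / 3 : ℝ)) : ∀ z, x z ≤ 1 := by
  obtain ⟨hT, -, -, hTb⟩ := top35_spec
  obtain ⟨hs01, hsl, -⟩ := switch35_spec
  have cq : Continuous fun z => y z ^ (1 / 3 : ℝ) := cy.rpow_const fun _ => Or.inr (by norm_num)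
  obtain ⟨a₀, ha₀, ha⟩ := R.swap.mass_pos cq (R.near₂ hy) hne
  have hG0' : ∀ s t, 0 ≤ s → 0 ≤ t → qC s + qC t ≤ 2 → 0 ≤ G t s := fun s t hs ht h =>
    hG0 t s ht hs (by linarith)
  have hGz' : ZerosIn fun s t => G t s := fun s t hs ht h e => by
    rcases hGz t s ht hs (by linarith) e with h | h | h
    exacts [Or.inr (Or.inl h), Or.inl h, Or.inr (Or.inr h.symm)]
  have hprod := R.swap.mass_prod_null (hG.comp continuous_swap) hG0' hGz'
  have cψ : Continuous fun z : ℝ × ℝ => top35 z.1 * switch35 z.2 :=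
    (hT.continuous.comp continuous_fst).mul (contDiff_switch35.continuous.comp continuous_snd)
  have hψ : Tendsto (R.avg fun z => top35 z.1 * switch35 z.2) atTop (𝓝 0) := by
    refine squeeze_zero' (.of_forall fun n => integral_nonneg fun w =>
      mul_nonneg (hTb _).1 (hs01 _).1) ?_ (by simpa using hprod.const_mul (1 / a₀))
    filter_upwards [ha] with n hn
    have e : R.swap.avg (fun z => top35 z.2 * switch35 z.1) n =
        R.avg (fun z => top35 z.1 * switch35 z.2) n := by
      simp only [Run.avg, Run.swap, Approx.symm]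
    have hb : 0 ≤ R.avg (fun z => top35 z.1 * switch35 z.2) n :=
      integral_nonneg fun w => mul_nonneg (hTb _).1 (hs01 _).1
    rw [e, ← mul_assoc]
    exact le_mul_of_one_le_left hb ((le_inv_mul_iff₀ ha₀).2 (by rw [mul_one]; exact hn))
  have cD : Continuous (defectOf G) := Run.continuous_defectOf hG
  have hnull : Tendsto (R.avg fun z => defectOf G z + top35 z.1 * switch35 z.2) atTop (𝓝 0) := by
    have := (R.defect_null hG hG0).add hψ
    rw [add_zero] at this
    refine this.congr fun n => ?_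
    exact (integral_add (S.integrable (R.continuous_pair _ cD n))
      (S.integrable (R.continuous_pair _ cψ n))).symm
  refine R.le_one cx (R.null_of_null (φ := fun z => max (z.1 - 1) 0)
    ((continuous_fst.sub continuous_const).max continuous_const) (cD.add cψ)
    (fun _ _ => le_max_right _ _)
    (fun z _ => add_nonneg (defectOf_nonneg G z) (mul_nonneg (hTb _).1 (hs01 _).1))
    (fun z _ hz => ?_) hnull)
  obtain ⟨h1, h2⟩ := (add_eq_zero_iff_of_nonneg (defectOf_nonneg G z)
    (mul_nonneg (hTb _).1 (hs01 _).1)).1 hz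
  obtain ⟨b1, b2, b3, -, -, hcase⟩ := defectOf_eq_zero hG0 hGz h1
  refine max_le ?_ le_rfl
  rcases hcase with h | h | h
  · linarith
  · rw [(hsl _ h).1, mul_one] at h2
    linarith [le_max_left (z.1 - 602 / 1000) 0, (hTb z.1).2.1]
  · rw [← h] at b3
    linarith [le_one_of_qC_le (show qC z.1 ≤ 1 by linarith)]

end Run

/-- The scalar dichotomy, given the passage form of the certificate. -/
theorem scalar_dichotomy_of_gate [PreconnectedSpace X] (hgate : Gate S G)
    (hG : Continuous fun z : ℝ × ℝ => G z.1 z.2)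
    (hG0 : ∀ s t, 0 ≤ s → 0 ≤ t → qC s + qC t ≤ 2 → 0 ≤ G s t) (hGz : ZerosIn G)
    (cx : Continuous x) (cy : Continuous y) (hx : ∀ z, 0 ≤ x z) (hy : ∀ z, 0 ≤ y z)
    (hB : Barriers S x y) :
    (∀ z, x z = 0) ∨ (∀ z, y z = 0) ∨ ((∀ z, x z = 1) ∧ ∀ z, y z = 1) := by
  obtain ⟨R⟩ := exists_run S hgate hB
  have hG0' : ∀ s t, 0 ≤ s → 0 ≤ t → qC s + qC t ≤ 2 → 0 ≤ G t s := fun s t hs ht h =>
    hG0 t s ht hs (by linarith)
  have hGz' : ZerosIn fun s t => G t s := fun s t hs ht h e => by
    rcases hGz t s ht hs (by linarith) e with h | h | h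
    exacts [Or.inr (Or.inl h), Or.inl h, Or.inr (Or.inr h.symm)]
  have small : ∀ {u v : X → ℝ}, Continuous u → (∀ z, 0 ≤ u z) → Barriers S u v →
      (¬∃ z, 602 / 1000 < u z ^ (1 / 3 : ℝ)) → ∀ z, u z = 0 := fun {u v} cu hu U hle => by
    rw [not_exists] at hle
    have h3 : ∀ z, u z ≤ (602 / 1000) ^ 3 := fun z => by
      have e := pow_le_pow_left₀ (Real.rpow_nonneg (hu z) _) (not_lt.1 (hle z)) 3
      rw [← Real.rpow_natCast (u z ^ (1 / 3 : ℝ)), ← Real.rpow_mul (hu z)] at e
      norm_num at e ⊢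
      exact e
    rcases U.eq_zero_or_one cu hu (fun z => (h3 z).trans (by norm_num)) with h' | h'
    · exact h'
    · intro z
      have := h3 z
      rw [h' z] at this
      norm_num at this
  by_cases hp : ∃ z, 602 / 1000 < x z ^ (1 / 3 : ℝ)
  swap
  · exact Or.inl (small cx hx hB hp)
  by_cases hq : ∃ z, 602 / 1000 < y z ^ (1 / 3 : ℝ)
  swap
  · exact Or.inr (Or.inl (small cy hy hB.symm hq))
  rcases hB.eq_zero_or_one cx hx (R.le_one_of_other hG hG0 hGz cx cy hy hq)
    with hx0 | hx1
  · exact Or.inl hx0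
  rcases hB.symm.eq_zero_or_one cy hy (R.swap.le_one_of_other (hG.comp continuous_swap) hG0' hGz' cy
    cx hx hp) with hy0 | hy1
  · exact Or.inr (Or.inl hy0)
  exact Or.inr (Or.inr ⟨hx1, hy1⟩)

end

end Vale.Agent.P211.Analytic
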